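import Vale.Agent.P171.Pressure

/-!
An upper bound for the pressure after adding a weak attraction of long range.
-/

open MeasureTheory Finset Filter
open scoped ENNReal Nat Topology

namespace Vale.Agent.P171

lemma sum_ediv_shift (L : ℕ) (hL : 0 < L) (n : ℤ) :
    ∑ t ∈ Finset.range L, (n + (t:ℤ)) / (L:ℤ) = n := by
  have hLz : (L:ℤ) ≠ 0 := by exact_mod_cast hL.ne'
  have step : ∀ m : ℤ, ∑ t ∈ Finset.range L, (m + 1 + (t:ℤ)) / (L:ℤ)
      = (∑ t ∈ Finset.range L, (m + (t:ℤ)) / (L:ℤ)) + 1 := by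
    intro m
    have h := Finset.sum_range_sub (fun t : ℕ => (m + (t:ℤ)) / (L:ℤ)) L
    rw [Finset.sum_sub_distrib] at h
    have e : ∀ t : ℕ, (m + ((t + 1 : ℕ):ℤ)) / (L:ℤ) = (m + 1 + (t:ℤ)) / (L:ℤ) := fun t => by
      push_cast; ring_nf
    simp only [e, Nat.cast_zero, add_zero] at h
    have e2 : (m + (L:ℤ)) / (L:ℤ) = m / (L:ℤ) + 1 := by
      have := Int.add_mul_ediv_right m 1 hLz
      simpa using this
    rw [e2] at h; omega
  induction n using Int.induction_on with
  | zero =>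
    refine Finset.sum_eq_zero fun t ht => ?_
    rw [zero_add]
    exact Int.ediv_eq_zero_of_lt (Int.natCast_nonneg t) (by exact_mod_cast Finset.mem_range.1 ht)
  | succ i ih => rw [step, ih]
  | pred i ih =>
    have := step (-(i:ℤ) - 1)
    simp only [sub_add_cancel] at this
    omega

lemma sep_count (L : ℕ) (hL : 0 < L) (n m : ℤ) :
    (∑ t : Fin L, if (n + (t:ℤ)) / (L:ℤ) = (m + (t:ℤ)) / (L:ℤ) then (0:ℝ) else 1) ≤ (|n - m| : ℤ) := by
  wlog h : n ≤ m with H
  · have := H L hL m n (le_of_not_ge h)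
    rw [abs_sub_comm]
    simpa only [eq_comm] using this
  rw [Fin.sum_univ_eq_sum_range (fun t => if (n + (t:ℤ)) / (L:ℤ) = (m + (t:ℤ)) / (L:ℤ) then (0:ℝ) else 1)]
  have hLz : (0:ℤ) ≤ (L:ℤ) := Int.natCast_nonneg L
  refine le_trans (Finset.sum_le_sum (g := fun t : ℕ =>
    (((m + (t:ℤ)) / (L:ℤ) - (n + (t:ℤ)) / (L:ℤ) : ℤ) : ℝ)) fun t _ => ?_) (le_of_eq ?_)
  · have hle : (n + (t:ℤ)) / (L:ℤ) ≤ (m + (t:ℤ)) / (L:ℤ) :=
      Int.ediv_le_ediv (by exact_mod_cast hL) (by linarith)
    split_ifs with he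
    · exact_mod_cast sub_nonneg.2 hle
    · exact_mod_cast (show (1:ℤ) ≤ _ by omega)
  · rw [← Int.cast_sum, Finset.sum_sub_distrib, sum_ediv_shift L hL, sum_ediv_shift L hL,
      abs_sub_comm, abs_of_nonneg (by linarith : 0 ≤ m - n)]

/-- The index of the block of side `L` containing a point, for the shift `s`. -/
noncomputable def bindex (L : ℕ) (s : Fin 3 → Fin L) (p : Point) : Fin 3 → ℤ :=
  fun a => (cell p a + ((s a : ℕ) : ℤ)) / (L:ℤ)

/-- The indicator of lying in a common block. -/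
noncomputable def sameBlock (L : ℕ) (s : Fin 3 → Fin L) (p q : Point) : ℝ :=
  if bindex L s p = bindex L s q then 1 else 0

lemma sep_avg (L : ℕ) (hL : 0 < L) (p q : Point) :
    ∑ s : Fin 3 → Fin L, (1 - sameBlock L s p q)
      ≤ (L:ℝ) ^ 2 * ∑ a, ((|cell p a - cell q a| : ℤ) : ℝ) := by
  let f : Fin 3 → Fin L → ℝ := fun a t =>
    if (cell p a + ((t:ℕ):ℤ)) / (L:ℤ) = (cell q a + ((t:ℕ):ℤ)) / (L:ℤ) then 0 else 1
  have h1 : ∀ s : Fin 3 → Fin L, 1 - sameBlock L s p q ≤ ∑ a, f a (s a) := fun s => by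
    unfold sameBlock
    by_cases h : bindex L s p = bindex L s q
    · rw [if_pos h, sub_self]
      exact Finset.sum_nonneg fun a _ => by simp only [f]; split_ifs <;> norm_num
    · rw [if_neg h, sub_zero]
      obtain ⟨a, ha⟩ : ∃ a, bindex L s p a ≠ bindex L s q a := by
        by_contra h'; push Not at h'; exact h (funext h')
      refine le_trans (le_of_eq ?_) (Finset.single_le_sum (f := fun a => f a (s a))
        (fun a _ => by simp only [f]; split_ifs <;> norm_num) (Finset.mem_univ a))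
      exact (if_neg ha).symm
  refine le_trans (Finset.sum_le_sum fun s _ => h1 s) ?_
  rw [Finset.sum_comm, Finset.mul_sum]
  refine Finset.sum_le_sum fun a _ => ?_
  rw [← (Equiv.funSplitAt a (Fin L)).symm.sum_comp (fun s => f a (s a)), Fintype.sum_prod_type]
  simp only [Equiv.funSplitAt_symm_apply, dite_true, Finset.sum_const, Finset.card_univ,
    Fintype.card_fun, Fintype.card_fin, nsmul_eq_mul]
  have hc : Fintype.card {j : Fin 3 // j ≠ a} = 2 := by simp [Fintype.card_subtype_compl]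
  rw [hc, ← Finset.mul_sum]
  push_cast
  refine mul_le_mul_of_nonneg_left ?_ (by positivity)
  have := sep_count L hL (cell p a) (cell q a)
  rw [Int.cast_abs, Int.cast_sub] at this
  exact this

/-- The fraction of shifts separating a pair at distance below `k+1`. -/
noncomputable def cutFrac (k L : ℕ) : ℝ := min 1 (9 * ((k:ℝ) + 1) / L)

/-- The cost of cutting space into blocks of side `L`. -/
noncomputable def cutCost (b : ℕ → ℝ) (L : ℕ) : ℝ := 14 * ∑' k, b k * cutFrac k L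

lemma cutFrac_nonneg (k L : ℕ) : 0 ≤ cutFrac k L := le_min zero_le_one (by positivity)

lemma summable_cutFrac {b : ℕ → ℝ} (hb : Coeff b) (L : ℕ) :
    Summable fun k => b k * cutFrac k L :=
  Summable.of_nonneg_of_le (fun k => mul_nonneg (hb.1 k) (cutFrac_nonneg k L))
    (fun k => mul_le_of_le_one_right (hb.1 k) (min_le_left _ _)) hb.2

lemma cutCost_nonneg {b : ℕ → ℝ} (hb : Coeff b) (L : ℕ) : 0 ≤ cutCost b L :=
  mul_nonneg (by norm_num) (tsum_nonneg fun k => mul_nonneg (hb.1 k) (cutFrac_nonneg k L))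

lemma tendsto_cutCost {b : ℕ → ℝ} (hb : Coeff b) : Tendsto (cutCost b) atTop (𝓝 0) := by
  have h : Tendsto (fun L : ℕ => ∑' k, b k * cutFrac k L) atTop (𝓝 (∑' _k : ℕ, (0:ℝ))) := by
    refine tendsto_tsum_of_dominated_convergence hb.2 (fun k => ?_) (Eventually.of_forall fun L k => ?_)
    · have h1 : Tendsto (fun L : ℕ => 9 * ((k:ℝ) + 1) / L) atTop (𝓝 0) :=
        tendsto_const_div_atTop_nhds_zero_nat _
      have h2 : Tendsto (fun L : ℕ => cutFrac k L) atTop (𝓝 0) :=
        squeeze_zero (fun L => cutFrac_nonneg k L) (fun L => min_le_right _ _) h1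
      simpa using h2.const_mul (b k)
    · rw [Real.norm_eq_abs, abs_of_nonneg (mul_nonneg (hb.1 k) (cutFrac_nonneg k L))]
      exact mul_le_of_le_one_right (hb.1 k) (min_le_left _ _)
  have h' := h.const_mul (14:ℝ)
  rw [tsum_zero, mul_zero] at h'
  exact h'

lemma block_avg {b : ℕ → ℝ} (hb : Coeff b) (L : ℕ) (hL : 0 < L) {n : ℕ} (x : Fin n → Point) :
    (∑ s : Fin 3 → Fin L, psum (fun p q => sameBlock L s p q * pot b (eDist p q)) x) / (L:ℝ) ^ 3
      ≤ en b x + cutCost b L * qsum x := by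
  have hLr : (0:ℝ) < L := by exact_mod_cast hL
  have hsum : HasSum (fun k => psum (fun p q => (b k * cutFrac k L) * kcell k p q) x)
      (psum (fun p q => ∑' k, (b k * cutFrac k L) * kcell k p q) x) := by
    refine psum_hasSum x fun i j => (Summable.hasSum ?_)
    refine Summable.of_nonneg_of_le (fun k => mul_nonneg (mul_nonneg (hb.1 k) (cutFrac_nonneg k L))
      (kcell_nonneg k _ _)) (fun k => ?_) (summable_cutFrac hb L)
    refine mul_le_of_le_one_right (mul_nonneg (hb.1 k) (cutFrac_nonneg k L)) ?_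
    unfold kcell; split_ifs
    · exact inv_le_one_of_one_le₀ (one_le_pow₀ (by linarith [(k.cast_nonneg : (0:ℝ) ≤ k)]))
    · norm_num
  have hbound : psum (fun p q => ∑' k, (b k * cutFrac k L) * kcell k p q) x ≤ cutCost b L * qsum x := by
    refine hasSum_le (fun k => ?_) hsum (((summable_cutFrac hb L).hasSum.mul_left 14).mul_right (qsum x))
    rw [psum_const_mul]
    have h1 : psum (kcell k) x ≤ 14 * qsum x := by
      have := psum_le_half_asum (F := kcell k) (x := x) fun i => kcell_nonneg _ _ _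
      have := asum_kcell_le k x
      have := qsum_nonneg x
      linarith
    calc _ ≤ (b k * cutFrac k L) * (14 * qsum x) :=
          mul_le_mul_of_nonneg_left h1 (mul_nonneg (hb.1 k) (cutFrac_nonneg k L))
      _ = _ := by ring
  rw [div_le_iff₀ (by positivity)]
  have hcard : (Fintype.card (Fin 3 → Fin L) : ℝ) = (L:ℝ) ^ 3 := by simp
  have main : ∑ s : Fin 3 → Fin L, psum (fun p q => sameBlock L s p q * pot b (eDist p q)) x
      ≤ (L:ℝ) ^ 3 * psum (fun p q => pot b (eDist p q) + ∑' k, (b k * cutFrac k L) * kcell k p q) x := by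
    rw [← psum_sum, ← psum_const_mul]
    refine psum_le_psum fun i j _ => ?_
    set p := x i
    set q := x j
    rw [← Finset.sum_mul]
    set S := ∑ s : Fin 3 → Fin L, (1 - sameBlock L s p q)
    have hS : ∑ s : Fin 3 → Fin L, sameBlock L s p q = (L:ℝ) ^ 3 - S := by
      simp only [S, Finset.sum_sub_distrib, Finset.sum_const, Finset.card_univ, nsmul_eq_mul,
        mul_one, hcard]; ring
    have hS0 : 0 ≤ S := Finset.sum_nonneg fun s _ => by unfold sameBlock; split_ifs <;> norm_num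
    have hS1 : S ≤ (L:ℝ) ^ 3 := by
      have : 0 ≤ ∑ s : Fin 3 → Fin L, sameBlock L s p q :=
        Finset.sum_nonneg fun s _ => by unfold sameBlock; split_ifs <;> norm_num
      linarith
    have hpsi : S * psi b (eDist p q) ≤ (L:ℝ) ^ 3 * ∑' k, (b k * cutFrac k L) * kcell k p q := by
      rw [psi, ← tsum_mul_left, ← tsum_mul_left]
      have s1 : Summable fun k => S * (b k * kern k (eDist p q)) := (summable_kern hb _).mul_left _
      have s2 : Summable fun k => (L:ℝ) ^ 3 * ((b k * cutFrac k L) * kcell k p q) := by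
        refine (Summable.of_nonneg_of_le (fun k => mul_nonneg (mul_nonneg (hb.1 k) (cutFrac_nonneg k L))
          (kcell_nonneg k _ _)) (fun k => ?_) (summable_cutFrac hb L)).mul_left _
        refine mul_le_of_le_one_right (mul_nonneg (hb.1 k) (cutFrac_nonneg k L)) ?_
        unfold kcell; split_ifs
        · exact inv_le_one_of_one_le₀ (one_le_pow₀ (by linarith [(k.cast_nonneg : (0:ℝ) ≤ k)]))
        · norm_num
      refine s1.tsum_le_tsum (fun k => ?_) s2
      have hk : S * kern k (eDist p q) ≤ (L:ℝ) ^ 3 * cutFrac k L * kcell k p q := by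
        refine le_trans (mul_le_mul_of_nonneg_left (kern_le_kcell k p q) hS0) ?_
        unfold kcell
        by_cases hc : close (k+1) (cell p) (cell q)
        · rw [if_pos hc]
          refine mul_le_mul_of_nonneg_right ?_ (by positivity)
          rw [cutFrac, mul_min_of_nonneg _ _ (by positivity : (0:ℝ) ≤ (L:ℝ) ^ 3), mul_one]
          refine le_min hS1 (le_trans (sep_avg L hL p q) ?_)
          have : ∀ a, ((|cell p a - cell q a| : ℤ) : ℝ) ≤ (k:ℝ) + 1 := fun a => by exact_mod_cast hc a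
          calc _ ≤ (L:ℝ) ^ 2 * ∑ _a : Fin 3, ((k:ℝ) + 1) :=
                mul_le_mul_of_nonneg_left (Finset.sum_le_sum fun a _ => this a) (by positivity)
            _ ≤ (L:ℝ) ^ 2 * (9 * ((k:ℝ) + 1)) := by
                simp only [Finset.sum_const, Finset.card_univ, Fintype.card_fin, nsmul_eq_mul]
                exact mul_le_mul_of_nonneg_left (by push_cast; linarith) (by positivity)
            _ = _ := by field_simp
        · rw [if_neg hc]; simp
      calc S * (b k * kern k (eDist p q)) = b k * (S * kern k (eDist p q)) := by ring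
        _ ≤ b k * ((L:ℝ) ^ 3 * cutFrac k L * kcell k p q) := mul_le_mul_of_nonneg_left hk (hb.1 k)
        _ = _ := by ring
    have hcore : 0 ≤ S * core (eDist p q) := mul_nonneg hS0 (core_nonneg _)
    rw [hS, pot]
    nlinarith
  refine le_trans main ?_
  rw [psum_add]
  show (L:ℝ) ^ 3 * (en b x + _) ≤ _
  nlinarith [mul_le_mul_of_nonneg_left hbound (by positivity : (0:ℝ) ≤ (L:ℝ) ^ 3)]

lemma kern_block_bound (L k : ℕ) (hL : 0 < L) (hk : L ≤ k + 1) (s : Fin 3 → Fin L) {n : ℕ}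
    (x : Fin n → Point) :
    psum (fun p q => kern k (eDist p q)) x ≤ 63 / (L:ℝ) ^ 3 * asum (sameBlock L s) x := by
  set D := (k + 1) / L + 1 with hD
  let F : Point → Point → ℝ := fun p q =>
    if close D (bindex L s p) (bindex L s q) then (((k:ℝ) + 1) ^ 3)⁻¹ else 0
  have hF0 : ∀ p q, 0 ≤ F p q := fun p q => by simp only [F]; split_ifs <;> positivity
  have h1 : psum (fun p q => kern k (eDist p q)) x ≤ psum F x := by
    refine psum_le_psum fun i j _ => le_trans (kern_le_kcell k _ _) ?_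
    unfold kcell
    by_cases hc : close (k+1) (cell (x i)) (cell (x j))
    · have hclose : close D (bindex L s (x i)) (bindex L s (x j)) := by
        intro a
        have hd : ((k:ℤ) + 1) < (L:ℤ) * (D:ℤ) := by
          have := Nat.lt_mul_div_succ (k+1) hL
          rw [← hD] at this
          exact_mod_cast this
        obtain ⟨c1, c2⟩ := abs_le.1 (hc a)
        push_cast at c1 c2
        set u := cell (x i) a + ((s a : ℕ) : ℤ) with hu
        set w := cell (x j) a + ((s a : ℕ) : ℤ) with hw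
        show |u / (L:ℤ) - w / (L:ℤ)| ≤ (D:ℤ)
        have hLz : (0:ℤ) < L := by exact_mod_cast hL
        have e1 := Int.mul_ediv_add_emod u (L:ℤ)
        have e2 := Int.mul_ediv_add_emod w (L:ℤ)
        have r1 := Int.emod_lt_of_pos u hLz
        have r2 := Int.emod_lt_of_pos w hLz
        have r3 := Int.emod_nonneg u hLz.ne'
        have r4 := Int.emod_nonneg w hLz.ne'
        have huw : u - w = cell (x i) a - cell (x j) a := by rw [hu, hw]; ring
        have a1 : (L:ℤ) * (u / L - w / L) < L * ((D:ℤ) + 1) := by nlinarith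
        have a2 : (L:ℤ) * (w / L - u / L) < L * ((D:ℤ) + 1) := by nlinarith
        have b1 := lt_of_mul_lt_mul_left a1 hLz.le
        have b2 := lt_of_mul_lt_mul_left a2 hLz.le
        rw [abs_le]; omega
      simp only [F]; rw [if_pos hc, if_pos hclose]
    · rw [if_neg hc]; exact hF0 _ _
  refine le_trans h1 (le_trans (psum_le_half_asum fun i => hF0 _ _) ?_)
  have h2 : asum F x = (((k:ℝ) + 1) ^ 3)⁻¹ *
      ∑ i, ∑ j, if close D (bindex L s (x i)) (bindex L s (x j)) then (1:ℝ) else 0 := by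
    simp only [asum, F, Finset.mul_sum, mul_ite, mul_one, mul_zero]
  have h3 := sum_close_le D (fun i => bindex L s (x i))
  have hnn : 0 ≤ asum (sameBlock L s) x := by
    unfold asum
    exact Finset.sum_nonneg fun _ _ => Finset.sum_nonneg fun _ _ => by
      unfold sameBlock; split_ifs <;> norm_num
  have hLr : (0:ℝ) < L := by exact_mod_cast hL
  have hk' : (L:ℝ) ≤ (k:ℝ) + 1 := by exact_mod_cast hk
  have hD2 : (2 * (D:ℝ) + 1) * L ≤ 5 * ((k:ℝ) + 1) := by
    have hdm : ((k + 1) / L : ℕ) * L ≤ k + 1 := Nat.div_mul_le_self _ _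
    have hdm' : (((k + 1) / L : ℕ) : ℝ) * L ≤ (k:ℝ) + 1 := by exact_mod_cast hdm
    rw [hD]; push_cast; linarith
  have hD3 := pow_le_pow_left₀ (by positivity) hD2 3
  rw [h2]
  calc 1/2 * ((((k:ℝ) + 1) ^ 3)⁻¹ * _)
      ≤ 1/2 * ((((k:ℝ) + 1) ^ 3)⁻¹ * ((2 * (D:ℝ) + 1) ^ 3 * asum (sameBlock L s) x)) := by
        refine mul_le_mul_of_nonneg_left (mul_le_mul_of_nonneg_left ?_ (by positivity)) (by norm_num)
        exact h3
    _ = (1/2 * ((((k:ℝ) + 1) ^ 3)⁻¹ * (2 * (D:ℝ) + 1) ^ 3)) * asum (sameBlock L s) x := by ring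
    _ ≤ _ := by
        refine mul_le_mul_of_nonneg_right ?_ hnn
        rw [le_div_iff₀ (by positivity)]
        rw [mul_pow] at hD3
        calc 1/2 * ((((k:ℝ) + 1) ^ 3)⁻¹ * (2 * (D:ℝ) + 1) ^ 3) * (L:ℝ) ^ 3
            = 1/2 * (((k:ℝ) + 1) ^ 3)⁻¹ * ((2 * (D:ℝ) + 1) ^ 3 * (L:ℝ) ^ 3) := by ring
          _ ≤ 1/2 * (((k:ℝ) + 1) ^ 3)⁻¹ * ((5 * ((k:ℝ) + 1)) ^ 3) :=
              mul_le_mul_of_nonneg_left hD3 (by positivity)
          _ = 125/2 := by field_simp; norm_num
          _ ≤ 63 := by norm_num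

/-- The exponent of the weight of one block. -/
noncomputable def blockExp (b : ℕ → ℝ) (μ δ τ : ℝ) (B : Set Point) {n : ℕ} (x : Fin n → Point) : ℝ :=
  μ * (∑ i, B.indicator 1 (x i))
    - psum (fun p q => B.indicator 1 p * B.indicator 1 q * pot b (eDist p q)) x
    + δ * asum (fun p q => B.indicator 1 p * B.indicator 1 q * sameCell p q) x
    + τ * (∑ i, B.indicator 1 (x i)) ^ 2

lemma blockExp_sub (b : ℕ → ℝ) (μ δ τ : ℝ) (B : Set Point) {n : ℕ} (x : Fin n → Point)
    (s : Finset (Fin n)) (h : ∀ i, x i ∈ B → i ∈ s) :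
    blockExp b μ δ τ B (sub x s) = blockExp b μ δ τ B x := by
  have h0 : ∀ i, i ∉ s → B.indicator (1 : Point → ℝ) (x i) = 0 := fun i hi =>
    Set.indicator_of_notMem (fun h' => hi (h i h')) _
  have hsum : ∑ a, B.indicator (1 : Point → ℝ) (sub x s a) = ∑ i, B.indicator 1 (x i) := by
    rw [sum_sub]; exact Finset.sum_subset (Finset.subset_univ s) fun i _ hi => h0 i hi
  have h2 : ∀ g : Fin n → Fin n → ℝ, (∀ i j, i ∉ s ∨ j ∉ s → g i j = 0) →
      ∑ i ∈ s, ∑ j ∈ s, g i j = ∑ i, ∑ j, g i j := by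
    intro g hg
    rw [Finset.sum_congr rfl fun i _ => Finset.sum_subset (Finset.subset_univ s)
      fun j _ hj => hg i j (Or.inr hj)]
    exact Finset.sum_subset (Finset.subset_univ s) fun i _ hi =>
      Finset.sum_eq_zero fun j _ => hg i j (Or.inl hi)
  unfold blockExp
  rw [hsum, psum_sub_set, asum_sub, h2, h2, psum]
  · rfl
  · intro i j hij
    rcases hij with hi | hj <;> simp [h0, *]
  · intro i j hij
    rcases hij with hi | hj <;> simp [h0, *]

/-- The points whose block index is `v`. -/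
def blockSet (L : ℕ) (s : Fin 3 → Fin L) (v : Fin 3 → ℤ) : Set Point := {p | bindex L s p = v}

/-- The weight of finitely many blocks. -/
noncomputable def blocksW (b : ℕ → ℝ) (μ δ τ : ℝ) (L : ℕ) (s : Fin 3 → Fin L)
    (S : Finset (Fin 3 → ℤ)) : Weight := fun n x =>
  @ite _ (Function.Injective x) (Classical.dec _)
    (ENNReal.ofReal (Real.exp (∑ v ∈ S, blockExp b μ δ τ (blockSet L s v) x))) 0

/-- The weight with a mean field bonus `τ n²`. -/
noncomputable def tauW (b : ℕ → ℝ) (μ δ τ : ℝ) : Weight := fun n x =>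
  @ite _ (Function.Injective x) (Classical.dec _)
    (ENNReal.ofReal (Real.exp (μ * n - en b x + δ * qsum x + τ * (n:ℝ) ^ 2))) 0

lemma measurableSet_blockSet (L : ℕ) (s : Fin 3 → Fin L) (v : Fin 3 → ℤ) :
    MeasurableSet (blockSet L s v) := by
  have h : Measurable (bindex L s) :=
    Measurable.comp (g := fun (u : Fin 3 → ℤ) a => (u a + ((s a : ℕ) : ℤ)) / (L:ℤ))
      (measurable_pi_lambda _ fun a => Measurable.comp (g := fun z : ℤ => (z + ((s a : ℕ) : ℤ)) / (L:ℤ))
        measurable_from_top (measurable_pi_apply a))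
      measurable_cell
  exact h (measurableSet_singleton v)

lemma measurable_blocksW {b : ℕ → ℝ} (hb : Coeff b) (μ δ τ : ℝ) (L : ℕ) (s : Fin 3 → Fin L)
    (S : Finset (Fin 3 → ℤ)) (n : ℕ) : Measurable (blocksW b μ δ τ L s S n) := by
  refine Measurable.ite (measurableSet_injective n) ?_ measurable_const
  refine (Finset.measurable_sum _ fun v _ => ?_).exp.ennreal_ofReal
  have hI : Measurable ((blockSet L s v).indicator (1 : Point → ℝ)) :=
    measurable_const.indicator (measurableSet_blockSet L s v)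
  have hi : ∀ i : Fin n, Measurable fun x : Fin n → Point => (blockSet L s v).indicator (1 : Point → ℝ) (x i) :=
    fun i => Measurable.comp (g := (blockSet L s v).indicator (1 : Point → ℝ)) hI (measurable_pi_apply i)
  have hd : ∀ i j : Fin n, Measurable fun x : Fin n → Point => pot b (eDist (x i) (x j)) := fun i j => by
    have h2 : Measurable (fun x : Fin n → Point => (x i, x j)) :=
      (measurable_pi_apply i).prodMk (measurable_pi_apply j)
    exact Measurable.comp (g := pot b) (measurable_pot hb)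
      (Measurable.comp (g := fun z : Point × Point => eDist z.1 z.2) measurable_eDist h2)
  have hc : ∀ i j : Fin n, Measurable fun x : Fin n → Point => sameCell (x i) (x j) := fun i j => by
    unfold sameCell
    exact Measurable.ite (measurableSet_eq_fun (measurable_cell.comp (measurable_pi_apply i))
      (measurable_cell.comp (measurable_pi_apply j))) measurable_const measurable_const
  unfold blockExp psum asum
  refine (((Finset.measurable_sum _ fun i _ => hi i).const_mul μ).sub ?_).add ?_ |>.add ?_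
  · refine (Finset.measurable_sum _ fun i _ => Finset.measurable_sum _ fun j _ => ?_).const_mul _
    by_cases h : i = j
    · simp [h]
    · simp only [if_neg h]; exact ((hi i).mul (hi j)).mul (hd i j)
  · exact (Finset.measurable_sum _ fun i _ => Finset.measurable_sum _ fun j _ =>
      ((hi i).mul (hi j)).mul (hc i j)).const_mul δ
  · exact ((Finset.measurable_sum _ fun i _ => hi i).pow_const 2).const_mul τ

lemma tauW_translate (b : ℕ → ℝ) (μ δ τ : ℝ) (v : Fin 3 → ℤ) (n : ℕ) (x : Fin n → Point) :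
    tauW b μ δ τ n (fun i => x i + fun a => (v a : ℝ)) = tauW b μ δ τ n x := by
  have he : en b (fun i => x i + fun a => (v a : ℝ)) = en b x := by simp [en, psum, eDist]
  have hq : qsum (fun i => x i + fun a => (v a : ℝ)) = qsum x := by
    simp [qsum, asum, sameCell, cell_add_int]
  unfold tauW
  rw [he, hq]
  by_cases h : Function.Injective x
  · rw [if_pos h, if_pos (show Function.Injective (fun i => x i + fun a => (v a : ℝ)) from
      fun i j hij => h (add_right_cancel hij))]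
  · rw [if_neg h, if_neg (show ¬ Function.Injective (fun i => x i + fun a => (v a : ℝ)) from fun h' =>
      h fun i j hij => h' (by simp [hij]))]

lemma gc_blocks_le {b : ℕ → ℝ} (hb : Coeff b) (μ δ τ : ℝ) (L : ℕ) (hL : 0 < L)
    (s : Fin 3 → Fin L) (S : Finset (Fin 3 → ℤ)) :
    gc (⋃ v ∈ S, blockSet L s v) (blocksW b μ δ τ L s S) ≤
      gc (box L) (tauW b μ δ τ) ^ S.card := by
  classical
  induction S using Finset.induction_on with
  | empty =>
    unfold gc
    rw [tsum_eq_single 0 fun n hn => ?_]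
    · rw [lintegral_congr (g := fun _ => 1) (fun x => by
        simp [blocksW, Function.injective_of_subsingleton]), setLIntegral_const, volume_cfg]
      simp
    · have : cfg (⋃ v ∈ (∅ : Finset (Fin 3 → ℤ)), blockSet L s v) n = ∅ := by
        ext x
        simp only [cfg, Finset.notMem_empty, Set.iUnion_false, Set.iUnion_empty,
          Set.mem_ofPred_eq, Set.mem_empty_iff_false, iff_false, not_forall, not_false_iff, exists_const]
        exact ⟨⟨0, Nat.pos_of_ne_zero hn⟩, by simp⟩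
      rw [this]; simp
  | @insert v S hv ih =>
    rw [Finset.card_insert_of_notMem hv, pow_succ', Finset.set_biUnion_insert]
    have hA := measurableSet_blockSet L s v
    have hB : MeasurableSet (⋃ u ∈ S, blockSet L s u) :=
      Finset.measurableSet_biUnion _ fun u _ => measurableSet_blockSet L s u
    have hd : Disjoint (blockSet L s v) (⋃ u ∈ S, blockSet L s u) := by
      simp only [Set.disjoint_iUnion_right]
      exact fun u hu => Set.disjoint_left.2 fun p hp hp' =>
        hv ((show v = u from hp.symm.trans hp') ▸ hu)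
    have h1 : gc (blockSet L s v) (blocksW b μ δ τ L s {v}) ≤ gc (box L) (tauW b μ δ τ) := by
      set c : Fin 3 → ℤ := fun a => (L:ℤ) * v a - ((s a : ℕ) : ℤ) with hc
      have hsub : blockSet L s v ⊆ cube L c := by
        intro p hp a
        have hpa : (cell p a + ((s a : ℕ) : ℤ)) / (L:ℤ) = v a := congrFun hp a
        have hLz : (0:ℤ) < L := by exact_mod_cast hL
        have e1 := Int.mul_ediv_add_emod (cell p a + ((s a : ℕ) : ℤ)) (L:ℤ)
        have r1 := Int.emod_lt_of_pos (cell p a + ((s a : ℕ) : ℤ)) hLz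
        have r3 := Int.emod_nonneg (cell p a + ((s a : ℕ) : ℤ)) hLz.ne'
        rw [hpa] at e1
        have l1 : c a ≤ cell p a := by simp only [hc]; linarith
        have l2 : cell p a + 1 ≤ c a + L := by simp only [hc]; omega
        have l1' : ((c a : ℤ) : ℝ) ≤ (⌊p a⌋ : ℤ) := Int.cast_le.2 l1
        have l2' : ((⌊p a⌋ : ℤ) : ℝ) + 1 ≤ (c a : ℝ) + (L:ℝ) := by exact_mod_cast l2
        have f1 := Int.floor_le (p a)
        have f2 := Int.lt_floor_add_one (p a)
        show (p - fun a => (c a : ℝ)) a ∈ Set.Icc (0:ℝ) L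
        simp only [Pi.sub_apply, Set.mem_Icc]; constructor <;> linarith
      refine le_trans (gc_mono hA fun n x hx => ?_) (le_trans (gc_mono_set hsub _) ?_) (b := gc (blockSet L s v) (tauW b μ δ τ))
      · unfold blocksW tauW
        by_cases h : Function.Injective x
        · rw [if_pos h, if_pos h]
          have hI : ∀ i, (blockSet L s v).indicator (1 : Point → ℝ) (x i) = 1 := fun i =>
            Set.indicator_of_mem (hx i) _
          simp [blockExp, hI, en, psum, qsum, asum]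
        · rw [if_neg h, if_neg h]
      · rw [cube]
        exact le_of_eq (gc_translate _ (tauW_translate b μ δ τ c) (measurableSet_box _))
    refine le_trans ?_ (mul_le_mul' h1 ih)
    rw [← gc_join hA hB hd (measurable_blocksW hb _ _ _ _ _ _) (measurable_blocksW hb _ _ _ _ _ _)]
    refine gc_mono (hA.union hB) fun n x hx => ?_
    unfold join blocksW
    by_cases h : Function.Injective x
    · rw [if_pos h, if_pos (show Function.Injective (sub x _) from h.comp (Finset.orderEmbOfFin _ rfl).injective),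
        if_pos (show Function.Injective (sub x _) from h.comp (Finset.orderEmbOfFin _ rfl).injective),
        ← ENNReal.ofReal_mul (Real.exp_nonneg _), ← Real.exp_add]
      refine ENNReal.ofReal_le_ofReal (Real.exp_le_exp.2 (le_of_eq ?_))
      rw [Finset.sum_insert hv, Finset.sum_singleton,
        blockExp_sub _ _ _ _ _ _ _ fun i hi => mem_idx.2 hi]
      congr 1
      refine Finset.sum_congr rfl fun u hu => (blockExp_sub _ _ _ _ _ _ _ fun i hi => ?_).symm
      rw [Finset.mem_compl, mem_idx]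
      intro hi'
      exact hv ((show v = u from (show bindex L s (x i) = v from hi').symm.trans hi) ▸ hu)
    · rw [if_neg h]; exact zero_le

/-- Adding `t` to the coefficient number `k`. -/
def upd (b : ℕ → ℝ) (k : ℕ) (t : ℝ) : ℕ → ℝ := fun j => b j + if j = k then t else 0

lemma coeff_upd {b : ℕ → ℝ} (hb : Coeff b) (k : ℕ) {t : ℝ} (ht : 0 ≤ t) : Coeff (upd b k t) :=
  ⟨fun j => add_nonneg (hb.1 j) (by split_ifs <;> simp [ht]),
    hb.2.add (hasSum_ite_eq k t).summable⟩

lemma en_upd {b : ℕ → ℝ} (hb : Coeff b) (k : ℕ) {t : ℝ} (ht : 0 ≤ t) {n : ℕ} (x : Fin n → Point) :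
    en (upd b k t) x = en b x - t * psum (fun p q => kern k (eDist p q)) x := by
  have h1 := en_hasSum (coeff_upd hb k ht) x
  have h2 := (en_hasSum hb x).add (hasSum_ite_eq k (t * psum (fun p q => kern k (eDist p q)) x))
  have h3 : (fun j => upd b k t j * psum (fun p q => kern j (eDist p q)) x) =
      fun j => b j * psum (fun p q => kern j (eDist p q)) x +
        if j = k then t * psum (fun p q => kern k (eDist p q)) x else 0 := by
    funext j
    unfold upd
    split_ifs with h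
    · subst h; ring
    · ring
  rw [h3] at h1
  have := h1.unique h2
  linarith

lemma gc_upd_le {b : ℕ → ℝ} (hb : Coeff b) (μ : ℝ) {L k : ℕ} (hL : 0 < L) (hk : L ≤ k + 1)
    {t : ℝ} (ht : 0 ≤ t) (M : ℕ) :
    gc (box M) (wgt (upd b k t) μ 0) ≤
      gc (box L) (tauW b μ (cutCost b L) (63 * t / (L:ℝ) ^ 3)) ^ ((M / L + 2) ^ 3) := by
  classical
  set δ := cutCost b L
  set τ := 63 * t / (L:ℝ) ^ 3
  set S : Finset (Fin 3 → ℤ) := Fintype.piFinset fun _ => Finset.Icc (0:ℤ) ((M / L : ℕ) + 1) with hSdef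
  have hS : S.card = (M / L + 2) ^ 3 := by
    have : ∀ q : ℕ, ((q : ℤ) + 1 + 1 - 0).toNat = q + 2 := fun q => by omega
    rw [hSdef, Fintype.card_piFinset]
    simp only [Int.card_Icc, this, Finset.prod_const, Finset.card_univ, Fintype.card_fin]
  have hLr : (0:ℝ) < L := by exact_mod_cast hL
  have hmem : ∀ s : Fin 3 → Fin L, ∀ p ∈ box M, bindex L s p ∈ S := by
    intro s p hp
    rw [hSdef, Fintype.mem_piFinset]
    intro a
    obtain ⟨h0, h1⟩ := hp a
    have c0 : 0 ≤ cell p a := Int.floor_nonneg.2 h0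
    have c1 : cell p a ≤ (M:ℤ) := by
      show ⌊p a⌋ ≤ _
      have := Int.floor_le_floor h1
      simpa using this
    have hs : ((s a : ℕ) : ℤ) ≤ (L:ℤ) := by exact_mod_cast (s a).isLt.le
    have hLz : (0:ℤ) < L := by exact_mod_cast hL
    refine Finset.mem_Icc.2 ⟨Int.ediv_nonneg (add_nonneg c0 (Int.natCast_nonneg _)) hLz.le, ?_⟩
    show (cell p a + ((s a : ℕ) : ℤ)) / (L:ℤ) ≤ _
    calc (cell p a + ((s a : ℕ) : ℤ)) / (L:ℤ) ≤ ((M:ℤ) + L) / L :=
          Int.ediv_le_ediv hLz (by linarith)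
      _ = (M:ℤ) / L + 1 := by simpa using Int.add_mul_ediv_right (M:ℤ) 1 hLz.ne'
      _ = _ := by push_cast; rfl
  set Γ := gc (box L) (tauW b μ δ τ)
  have hc : 0 < (L:ℝ) ^ 3 := by positivity
  have hpt : ∀ n x, x ∈ cfg (box (M:ℝ)) n → wgt (upd b k t) μ 0 n x ≤
      ENNReal.ofReal ((L:ℝ) ^ 3)⁻¹ * ∑ s : Fin 3 → Fin L, blocksW b μ δ τ L s S n x := by
    intro n x hx
    by_cases h : Function.Injective x
    swap; · rw [wgt_of_not_inj h]; exact zero_le
    simp only [blocksW, if_pos h]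
    rw [wgt_of_inj h, zero_mul, add_zero, ← ENNReal.ofReal_sum_of_nonneg (fun s _ => Real.exp_nonneg _),
      ← ENNReal.ofReal_mul (by positivity)]
    refine ENNReal.ofReal_le_ofReal ?_
    have hexp : ∀ s : Fin 3 → Fin L, ∑ v ∈ S, blockExp b μ δ τ (blockSet L s v) x
        = μ * n - psum (fun p q => sameBlock L s p q * pot b (eDist p q)) x + δ * qsum x
          + τ * asum (sameBlock L s) x := by
      intro s
      let χ : (Fin 3 → ℤ) → Point → ℝ := fun v p => (blockSet L s v).indicator 1 p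
      have hχ : ∀ v i, χ v (x i) = if bindex L s (x i) = v then 1 else 0 := fun v i => by
        simp [χ, blockSet, Set.indicator_apply]
      have hχ1 : ∀ i, ∑ v ∈ S, χ v (x i) = 1 := fun i => by
        simp [hχ, hmem s _ (hx i)]
      have hχ2 : ∀ i j, ∑ v ∈ S, χ v (x i) * χ v (x j) = sameBlock L s (x i) (x j) := fun i j => by
        simp only [hχ, ite_mul, one_mul, zero_mul, Finset.sum_ite_eq, hmem s _ (hx i), if_true, sameBlock]
        exact if_congr eq_comm rfl rfl
      have hN : ∑ v ∈ S, ∑ i, χ v (x i) = (n:ℝ) := by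
        rw [Finset.sum_comm]; simp [hχ1]
      have hsq : ∑ v ∈ S, (∑ i, χ v (x i)) ^ 2 = asum (sameBlock L s) x := by
        simp only [sq, Finset.sum_mul_sum, asum]
        rw [Finset.sum_comm]
        refine Finset.sum_congr rfl fun i _ => ?_
        rw [Finset.sum_comm]
        exact Finset.sum_congr rfl fun j _ => hχ2 i j
      have hps : ∑ v ∈ S, psum (fun p q => χ v p * χ v q * pot b (eDist p q)) x
          = psum (fun p q => sameBlock L s p q * pot b (eDist p q)) x := by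
        rw [← psum_sum]
        refine le_antisymm (psum_le_psum fun i j _ => ?_) (psum_le_psum fun i j _ => ?_) <;>
          rw [← Finset.sum_mul, hχ2]
      have hq : ∑ v ∈ S, asum (fun p q => χ v p * χ v q * sameCell p q) x = qsum x := by
        simp only [asum, qsum]
        rw [Finset.sum_comm]
        refine Finset.sum_congr rfl fun i _ => ?_
        rw [Finset.sum_comm]
        refine Finset.sum_congr rfl fun j _ => ?_
        rw [← Finset.sum_mul, hχ2]
        unfold sameBlock sameCell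
        by_cases hc : cell (x i) = cell (x j)
        · have : bindex L s (x i) = bindex L s (x j) := by unfold bindex; rw [hc]
          rw [if_pos hc, if_pos this]; simp
        · rw [if_neg hc]; simp
      show ∑ v ∈ S, (μ * (∑ i, χ v (x i)) - psum (fun p q => χ v p * χ v q * pot b (eDist p q)) x
        + δ * asum (fun p q => χ v p * χ v q * sameCell p q) x + τ * (∑ i, χ v (x i)) ^ 2) = _
      rw [Finset.sum_add_distrib, Finset.sum_add_distrib, Finset.sum_sub_distrib,
        ← Finset.mul_sum, ← Finset.mul_sum, ← Finset.mul_sum, hN, hps, hq, hsq]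
    have hcard : (Fintype.card (Fin 3 → Fin L) : ℝ) = (L:ℝ) ^ 3 := by simp
    have hJ : Real.exp (∑ s : Fin 3 → Fin L, ((L:ℝ) ^ 3)⁻¹ * (∑ v ∈ S, blockExp b μ δ τ (blockSet L s v) x))
        ≤ ∑ s : Fin 3 → Fin L, ((L:ℝ) ^ 3)⁻¹ * Real.exp (∑ v ∈ S, blockExp b μ δ τ (blockSet L s v) x) := by
      have := convexOn_exp.map_sum_le (t := (Finset.univ : Finset (Fin 3 → Fin L)))
        (w := fun _ => ((L:ℝ) ^ 3)⁻¹)
        (p := fun s => ∑ v ∈ S, blockExp b μ δ τ (blockSet L s v) x)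
        (fun _ _ => by positivity)
        (by rw [Finset.sum_const, Finset.card_univ, nsmul_eq_mul, hcard, mul_inv_cancel₀ hc.ne'])
        (fun _ _ => Set.mem_univ _)
      simpa [smul_eq_mul] using this
    rw [Finset.mul_sum]
    refine le_trans (Real.exp_le_exp.2 ?_) hJ
    rw [← Finset.mul_sum]
    simp only [hexp, Finset.sum_add_distrib, Finset.sum_sub_distrib, Finset.sum_const,
      Finset.card_univ, nsmul_eq_mul, hcard]
    have h1 := block_avg hb L hL x
    rw [div_le_iff₀ hc] at h1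
    have h2 : ((L:ℝ) ^ 3) * (t * psum (fun p q => kern k (eDist p q)) x) ≤
        ∑ s : Fin 3 → Fin L, τ * asum (sameBlock L s) x := by
      rw [← hcard, ← nsmul_eq_mul, ← Finset.card_univ, ← Finset.sum_const]
      refine Finset.sum_le_sum fun s _ => ?_
      calc t * psum (fun p q => kern k (eDist p q)) x
          ≤ t * (63 / (L:ℝ) ^ 3 * asum (sameBlock L s) x) :=
            mul_le_mul_of_nonneg_left (kern_block_bound L k hL hk s x) ht
        _ = _ := by simp only [τ]; ring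
    rw [en_upd hb k ht, le_inv_mul_iff₀ hc]
    nlinarith
  refine le_trans (gc_mono (measurableSet_box _) hpt) ?_
  have hone : ∀ s : Fin 3 → Fin L, gc (box (M:ℝ)) (blocksW b μ δ τ L s S) ≤ Γ ^ ((M / L + 2) ^ 3) := by
    intro s
    rw [← hS]
    refine le_trans (gc_mono_set (fun p hp => ?_) _) (gc_blocks_le hb μ δ τ L hL s S)
    simp only [Set.mem_iUnion]
    exact ⟨_, hmem s p hp, rfl⟩
  have hsplit : gc (box (M:ℝ)) (fun n x => ENNReal.ofReal ((L:ℝ) ^ 3)⁻¹ *
      ∑ s : Fin 3 → Fin L, blocksW b μ δ τ L s S n x) = ENNReal.ofReal ((L:ℝ) ^ 3)⁻¹ *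
      ∑ s : Fin 3 → Fin L, gc (box (M:ℝ)) (blocksW b μ δ τ L s S) := by
    unfold gc
    rw [← Summable.tsum_finsetSum (fun _ _ => ENNReal.summable), ← ENNReal.tsum_mul_left]
    refine tsum_congr fun n => ?_
    rw [lintegral_const_mul _ (Finset.measurable_sum _ fun s _ => measurable_blocksW hb _ _ _ _ _ _ _),
      lintegral_finsetSum _ fun s _ => measurable_blocksW hb _ _ _ _ _ _ _, ← Finset.mul_sum]
    exact mul_left_comm _ _ _
  rw [hsplit]
  refine le_trans (mul_le_mul' le_rfl (Finset.sum_le_card_nsmul _ _ _ fun s _ => hone s)) ?_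
  rw [Finset.card_univ, nsmul_eq_mul, ← mul_assoc]
  refine mul_le_of_le_one_left' (le_of_eq ?_)
  rw [Fintype.card_fun, Fintype.card_fin, Fintype.card_fin, ← ENNReal.ofReal_natCast,
    ← ENNReal.ofReal_mul (by positivity)]
  push_cast
  rw [inv_mul_cancel₀ hc.ne', ENNReal.ofReal_one]

lemma tsum_exp_neg_sq {c : ℝ} (hc : 0 < c) :
    ∑' m : ℕ, ENNReal.ofReal (Real.exp (-c * (m:ℝ) ^ 2)) ≤ ENNReal.ofReal (1 + 1 / c) := by
  have h1 : ∀ m : ℕ, Real.exp (-c * (m:ℝ) ^ 2) ≤ Real.exp (-c) ^ m := fun m => by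
    rw [← Real.exp_nat_mul]
    refine Real.exp_le_exp.2 ?_
    have : (m:ℝ) ≤ (m:ℝ) ^ 2 := by exact_mod_cast Nat.le_self_pow two_ne_zero m
    nlinarith
  have h2 : Real.exp (-c) ≤ 1 / (1 + c) := by
    rw [Real.exp_neg, one_div]
    exact inv_anti₀ (by linarith) (by linarith [Real.add_one_le_exp c])
  have h3 : 1 / (1 + c) < 1 := by rw [div_lt_one (by linarith)]; linarith
  have hg := hasSum_geometric_of_lt_one (Real.exp_nonneg (-c)) (lt_of_le_of_lt h2 h3)
  refine le_trans (ENNReal.tsum_le_tsum fun m => ENNReal.ofReal_le_ofReal (h1 m)) ?_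
  rw [← ENNReal.ofReal_tsum_of_nonneg (fun m => by positivity) hg.summable, hg.tsum_eq]
  refine ENNReal.ofReal_le_ofReal ?_
  calc (1 - Real.exp (-c))⁻¹ ≤ (1 - 1 / (1 + c))⁻¹ :=
        inv_anti₀ (by linarith) (by linarith)
    _ = _ := by
        have e : 1 - 1 / (1 + c) = c / (1 + c) := by field_simp; ring
        rw [e, inv_div, add_div, div_self hc.ne']; ring

lemma gc_wgt_interp {b : ℕ → ℝ} (hb : Coeff b) {B : ℝ}
    (hB : ∀ μ δ : ℝ, δ ≤ 1 → ∀ L : ℕ, gc (box L) (wgt b μ δ) ≤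
      ENNReal.ofReal (Real.exp (((L:ℝ) + 1) ^ 3 * (1 + 2 * (μ + B) ^ 2))))
    (μ : ℝ) {δ : ℝ} (h0 : 0 ≤ δ) (h1 : δ ≤ 1) (L : ℕ) :
    gc (box L) (wgt b μ δ) ≤ ENNReal.ofReal (Real.exp (((L:ℝ) + 1) ^ 3 *
      ((1 - δ) * pressure b μ + δ * (1 + 2 * (μ + B) ^ 2)))) := by
  set α := ((L:ℝ) + 1) ^ 3 * pressure b μ
  set β := ((L:ℝ) + 1) ^ 3 * (1 + 2 * (μ + B) ^ 2)
  set γ := (1 - δ) * α + δ * β
  set A := ENNReal.ofReal ((1 - δ) * Real.exp (γ - α))
  set C := ENNReal.ofReal (δ * Real.exp (γ - β))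
  have hd : 0 ≤ 1 - δ := by linarith
  have hpt : ∀ n x, wgt b μ δ n x ≤ A * wgt b μ 0 n x + C * wgt b μ 1 n x := by
    intro n x
    by_cases h : Function.Injective x
    swap; · rw [wgt_of_not_inj h]; exact zero_le
    rw [wgt_of_inj h, wgt_of_inj h, wgt_of_inj h, zero_mul, add_zero, one_mul,
      ← ENNReal.ofReal_mul (by positivity), ← ENNReal.ofReal_mul (by positivity),
      ← ENNReal.ofReal_add (by positivity) (by positivity)]
    refine ENNReal.ofReal_le_ofReal ?_
    set u := μ * n - en b x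
    have := convexOn_exp.2 (Set.mem_univ (γ - α + u)) (Set.mem_univ (γ - β + (u + qsum x))) hd h0
      (by ring)
    simp only [smul_eq_mul] at this
    have e : (1 - δ) * (γ - α + u) + δ * (γ - β + (u + qsum x)) = u + δ * qsum x := by
      simp only [γ]; ring
    rw [e, Real.exp_add (γ - α), Real.exp_add (γ - β), ← mul_assoc, ← mul_assoc] at this
    exact this
  refine le_trans (gc_mono (measurableSet_box _) fun n x _ => hpt n x) ?_
  have : gc (box (L:ℝ)) (fun n x => A * wgt b μ 0 n x + C * wgt b μ 1 n x)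
      = A * gc (box (L:ℝ)) (wgt b μ 0) + C * gc (box (L:ℝ)) (wgt b μ 1) := by
    unfold gc
    rw [← ENNReal.tsum_mul_left, ← ENNReal.tsum_mul_left, ← ENNReal.tsum_add]
    refine tsum_congr fun n => ?_
    rw [lintegral_add_left ((measurable_wgt hb μ 0 n).const_mul A),
      lintegral_const_mul _ (measurable_wgt hb μ 0 n), lintegral_const_mul _ (measurable_wgt hb μ 1 n)]
    ring
  rw [this]
  refine le_trans (add_le_add (mul_le_mul' le_rfl (gc_le_pressure hb μ L))
    (mul_le_mul' le_rfl (hB μ 1 le_rfl L))) (le_of_eq ?_)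
  rw [← ENNReal.ofReal_mul (by positivity), ← ENNReal.ofReal_mul (by positivity),
    ← ENNReal.ofReal_add (by positivity) (by positivity)]
  congr 1
  rw [mul_assoc, mul_assoc, ← Real.exp_add, ← Real.exp_add, sub_add_cancel, sub_add_cancel]
  simp only [γ, α, β]; ring

lemma tauW_bound {b : ℕ → ℝ} (hb : Coeff b) (μ δ : ℝ) {τ : ℝ} (L : ℕ) :
    gc (box L) (tauW b μ δ τ) ≤ ∑' m : ℕ, ENNReal.ofReal (Real.exp (-τ * (m:ℝ) ^ 2)) *
      gc (box L) (wgt b (μ + 2 * τ * m) δ) := by
  refine le_trans (gc_mono (measurableSet_box _) (v := fun n x =>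
    ∑' m : ℕ, ENNReal.ofReal (Real.exp (-τ * (m:ℝ) ^ 2)) * wgt b (μ + 2 * τ * m) δ n x) fun n x _ => ?_) ?_
  · unfold tauW
    by_cases h : Function.Injective x
    · rw [if_pos h]
      refine le_trans (le_of_eq ?_) (ENNReal.le_tsum n)
      rw [wgt_of_inj h, ← ENNReal.ofReal_mul (Real.exp_nonneg _), ← Real.exp_add]
      congr 2; ring
    · rw [if_neg h]; exact zero_le
  · refine le_of_eq ?_
    unfold gc
    have : ∀ n : ℕ, ∫⁻ x in cfg (box (L:ℝ)) n, ∑' m : ℕ, ENNReal.ofReal (Real.exp (-τ * (m:ℝ) ^ 2)) *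
        wgt b (μ + 2 * τ * m) δ n x = ∑' m : ℕ, ENNReal.ofReal (Real.exp (-τ * (m:ℝ) ^ 2)) *
        ∫⁻ x in cfg (box (L:ℝ)) n, wgt b (μ + 2 * τ * m) δ n x := fun n => by
      rw [lintegral_tsum fun m => ((measurable_wgt hb _ δ n).const_mul _).aemeasurable]
      exact tsum_congr fun m => lintegral_const_mul _ (measurable_wgt hb _ δ n)
    simp only [this, ← ENNReal.tsum_mul_left]
    rw [ENNReal.tsum_comm]
    exact tsum_congr fun m => tsum_congr fun n => mul_left_comm _ _ _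

/-- The bound obtained from blocks of side `L`. -/
noncomputable def blockBound (P C q t d : ℝ) (L : ℕ) : ℝ :=
  ((1:ℝ) + 1 / L) ^ 3 * (P + d * C) + 1008 * t * q ^ 2 +
    Real.log (1 + 4 * (L:ℝ) ^ 3 / (63 * t)) / (L:ℝ) ^ 3

lemma tendsto_blockBound (P C q : ℝ) {t : ℝ} (ht : 0 < t) {d : ℕ → ℝ}
    (hd : Tendsto d atTop (𝓝 0)) :
    Tendsto (fun L => blockBound P C q t (d L) L) atTop (𝓝 (P + 1008 * t * q ^ 2)) := by
  have h1 : Tendsto (fun L : ℕ => 1 + 4 * (L:ℝ) ^ 3 / (63 * t)) atTop atTop := by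
    refine tendsto_atTop_add_const_left _ 1 (Tendsto.atTop_div_const (by positivity) ?_)
    exact Tendsto.const_mul_atTop (by norm_num)
      ((tendsto_pow_atTop three_ne_zero).comp tendsto_natCast_atTop_atTop)
  have h2 := (Real.isLittleO_log_id_atTop.tendsto_div_nhds_zero).comp h1
  have hinv : Tendsto (fun L : ℕ => 1 / (L:ℝ) ^ 3) atTop (𝓝 0) :=
    tendsto_const_nhds.div_atTop ((tendsto_pow_atTop three_ne_zero).comp tendsto_natCast_atTop_atTop)
  have h3 : Tendsto (fun L : ℕ => (1 + 4 * (L:ℝ) ^ 3 / (63 * t)) / (L:ℝ) ^ 3) atTop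
      (𝓝 (0 + 4 / (63 * t))) := by
    refine (hinv.add_const (4 / (63 * t))).congr' ?_
    filter_upwards [eventually_gt_atTop 0] with L hL
    have : (L:ℝ) ≠ 0 := by exact_mod_cast hL.ne'
    field_simp
  have h4 : Tendsto (fun L : ℕ => Real.log (1 + 4 * (L:ℝ) ^ 3 / (63 * t)) / (L:ℝ) ^ 3) atTop (𝓝 0) := by
    have h5 := h2.mul h3
    rw [zero_mul] at h5
    refine h5.congr' ?_
    filter_upwards [eventually_gt_atTop 0] with L hL
    have : (L:ℝ) ≠ 0 := by exact_mod_cast hL.ne'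
    have : 1 + 4 * (L:ℝ) ^ 3 / (63 * t) ≠ 0 := by positivity
    simp only [Function.comp_apply, id]
    field_simp
  have h6 : Tendsto (fun L => blockBound P C q t (d L) L) atTop
      (𝓝 (((1:ℝ) + 0) ^ 3 * (P + 0 * C) + 1008 * t * q ^ 2 + 0)) :=
    ((((tendsto_const_nhds.add (tendsto_const_div_atTop_nhds_zero_nat (1:ℝ))).pow 3).mul
      (tendsto_const_nhds.add (hd.mul_const C))).add tendsto_const_nhds).add h4
  simpa using h6

lemma exponent_bound {q M₂ t δ l B μ s P₀ Ps : ℝ} (hl : 0 ≤ l) (hl2 : (l + 1) ^ 3 ≤ 2 * l ^ 3)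
    (hq : 0 ≤ q) (hM₂ : 0 ≤ M₂) (ht : 0 < t) (ht' : 4 * (M₂ + 4) ≤ 1 / (252 * t))
    (hδ0 : 0 ≤ δ) (hδ : δ ≤ 1) (hs : 0 ≤ s) (hPs : 0 ≤ Ps)
    (h1 : Ps ≤ P₀ + q * s + M₂ * s ^ 2) :
    -(l ^ 3 * (1 / (252 * t) * s ^ 2)) + (l + 1) ^ 3 * ((1 - δ) * Ps + δ * (1 + 2 * (μ + s + B) ^ 2))
      ≤ (l + 1) ^ 3 * (P₀ + δ * (1 + 4 * (μ + B) ^ 2)) + l ^ 3 * (1008 * t * q ^ 2)
        - l ^ 3 * (1 / (252 * t) * s ^ 2) / 4 := by
  set C := 1 + 4 * (μ + B) ^ 2 with hC
  set a := 1 / (252 * t) with ha'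
  have ha : 0 < a := by positivity
  have h2 : (1 - δ) * Ps + δ * (1 + 2 * (μ + s + B) ^ 2) ≤
      P₀ + δ * C + (q * s + (M₂ + 4) * s ^ 2) := by
    have h3 : 1 + 2 * (μ + s + B) ^ 2 ≤ C + 4 * s ^ 2 := by
      rw [hC]; nlinarith [sq_nonneg (μ + B - s)]
    have h4 : δ * (1 + 2 * (μ + s + B) ^ 2) ≤ δ * (C + 4 * s ^ 2) :=
      mul_le_mul_of_nonneg_left h3 hδ0
    have h5 : δ * (4 * s ^ 2) ≤ 4 * s ^ 2 := mul_le_of_le_one_left (by positivity) hδ
    nlinarith [mul_nonneg hδ0 hPs]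
  have hnn : 0 ≤ q * s + (M₂ + 4) * s ^ 2 := by positivity
  have h6 : (l + 1) ^ 3 * ((1 - δ) * Ps + δ * (1 + 2 * (μ + s + B) ^ 2)) ≤
      (l + 1) ^ 3 * (P₀ + δ * C) + 2 * l ^ 3 * (q * s + (M₂ + 4) * s ^ 2) := by
    calc _ ≤ (l + 1) ^ 3 * (P₀ + δ * C + (q * s + (M₂ + 4) * s ^ 2)) :=
          mul_le_mul_of_nonneg_left h2 (by positivity)
      _ ≤ _ := by rw [mul_add]; linarith [mul_le_mul_of_nonneg_right hl2 hnn]
  have h7 : 2 * (q * s + (M₂ + 4) * s ^ 2) ≤ 1008 * t * q ^ 2 + 3/4 * (a * s ^ 2) := by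
    have h8 : 2 * (M₂ + 4) * s ^ 2 ≤ a / 2 * s ^ 2 :=
      mul_le_mul_of_nonneg_right (by linarith) (sq_nonneg s)
    have e : 1008 * t * q ^ 2 = 4 * q ^ 2 / a := by rw [ha']; field_simp; ring
    have : 0 ≤ (a * s - 4 * q) ^ 2 / (4 * a) := by positivity
    have e2 : (a * s - 4 * q) ^ 2 / (4 * a) = a / 4 * s ^ 2 - 2 * (q * s) + 4 * q ^ 2 / a := by
      field_simp; ring
    linarith
  have h10 := mul_le_mul_of_nonneg_left h7 (by positivity : (0:ℝ) ≤ l ^ 3)
  linarith

lemma tauW_le_blockBound {b : ℕ → ℝ} (hb : Coeff b) {μ q M₂ B : ℝ} (hM₂ : 0 ≤ M₂) (hq : 0 ≤ q)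
    (hB : ∀ μ δ : ℝ, δ ≤ 1 → ∀ L : ℕ, gc (box L) (wgt b μ δ) ≤
      ENNReal.ofReal (Real.exp (((L:ℝ) + 1) ^ 3 * (1 + 2 * (μ + B) ^ 2))))
    (hP : ∀ s, 0 ≤ s → pressure b (μ + s) ≤ pressure b μ + q * s + M₂ * s ^ 2) {t : ℝ} (ht : 0 < t)
    (ht' : 4 * (M₂ + 4) ≤ 1 / (252 * t)) {δ : ℝ} (hδ0 : 0 ≤ δ) (hδ : δ ≤ 1) {L : ℕ} (hL : 4 ≤ L) :
    gc (box L) (tauW b μ δ (63 * t / (L:ℝ) ^ 3)) ≤ ENNReal.ofReal (Real.exp ((L:ℝ) ^ 3 *
      blockBound (pressure b μ) (1 + 4 * (μ + B) ^ 2) q t δ L)) := by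
  set P₀ := pressure b μ
  set C := 1 + 4 * (μ + B) ^ 2
  set τ := 63 * t / (L:ℝ) ^ 3 with hτdef
  have hLr : (0:ℝ) < L := by exact_mod_cast (show 0 < L by omega)
  have hτ : 0 < τ := by positivity
  have hV2 : ((L:ℝ) + 1) ^ 3 ≤ 2 * (L:ℝ) ^ 3 := by
    have h4 : (4:ℝ) ≤ L := by exact_mod_cast hL
    nlinarith [mul_le_mul h4 h4 (by norm_num) hLr.le]
  refine le_trans (tauW_bound hb μ δ L) ?_
  set K := ((L:ℝ) + 1) ^ 3 * (P₀ + δ * C) + (L:ℝ) ^ 3 * (1008 * t * q ^ 2) with hK
  have hterm : ∀ m : ℕ, ENNReal.ofReal (Real.exp (-τ * (m:ℝ) ^ 2)) *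
      gc (box L) (wgt b (μ + 2 * τ * m) δ) ≤
      ENNReal.ofReal (Real.exp K) * ENNReal.ofReal (Real.exp (-(τ / 4) * (m:ℝ) ^ 2)) := by
    intro m
    refine le_trans (mul_le_mul' le_rfl (gc_wgt_interp hb hB _ hδ0 hδ L)) ?_
    rw [← ENNReal.ofReal_mul (Real.exp_nonneg _), ← ENNReal.ofReal_mul (Real.exp_nonneg _),
      ← Real.exp_add, ← Real.exp_add]
    refine ENNReal.ofReal_le_ofReal (Real.exp_le_exp.2 ?_)
    have htm : τ * (m:ℝ) ^ 2 = (L:ℝ) ^ 3 * (1 / (252 * t) * (2 * τ * m) ^ 2) := by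
      rw [hτdef]; field_simp; ring
    have hs : 0 ≤ 2 * τ * (m:ℝ) := by positivity
    have := exponent_bound (B := B) (μ := μ) hLr.le hV2 hq hM₂ ht ht' hδ0 hδ hs
      (pressure_nonneg hb _) (hP _ hs)
    rw [hK]
    linarith
  refine le_trans (ENNReal.tsum_le_tsum hterm) ?_
  rw [ENNReal.tsum_mul_left]
  refine le_trans (mul_le_mul' le_rfl (tsum_exp_neg_sq (by positivity : 0 < τ / 4))) ?_
  rw [← ENNReal.ofReal_mul (Real.exp_nonneg _)]
  refine ENNReal.ofReal_le_ofReal (le_of_eq ?_)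
  have e : (1:ℝ) + 1 / (τ / 4) = 1 + 4 * (L:ℝ) ^ 3 / (63 * t) := by rw [hτdef]; field_simp
  rw [e]
  have hX : (0:ℝ) < 1 + 4 * (L:ℝ) ^ 3 / (63 * t) := by positivity
  conv_lhs => arg 2; rw [← Real.exp_log hX]
  rw [← Real.exp_add]
  congr 1
  have hratio : ((L:ℝ) + 1) ^ 3 = (L:ℝ) ^ 3 * ((1:ℝ) + 1 / L) ^ 3 := by
    rw [← mul_pow]; congr 1; field_simp
  have hlog : (L:ℝ) ^ 3 * (Real.log (1 + 4 * (L:ℝ) ^ 3 / (63 * t)) / (L:ℝ) ^ 3)
      = Real.log (1 + 4 * (L:ℝ) ^ 3 / (63 * t)) :=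
    mul_div_cancel₀ _ (by positivity)
  rw [hK, hratio, blockBound]
  linear_combination -hlog

/-- If the pressure grows at rate at most `q` to the right of `μ`, then a weak attraction of long
range with strength `t` raises it by at most a multiple of `t q²`. -/
theorem attraction_upper {b : ℕ → ℝ} (hb : Coeff b) (μ q M₂ : ℝ) (hM₂ : 0 ≤ M₂) (hq : 0 ≤ q)
    (hP : ∀ s, 0 ≤ s → pressure b (μ + s) ≤ pressure b μ + q * s + M₂ * s ^ 2) {t : ℝ} (ht : 0 < t)
    (ht' : 4 * (M₂ + 4) ≤ 1 / (252 * t)) {ε : ℝ} (hε : 0 < ε) :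
    ∃ k₀ : ℕ, ∀ k, k₀ ≤ k → pressure (upd b k t) μ ≤ pressure b μ + 1008 * t * q ^ 2 + ε := by
  obtain ⟨B, hB'⟩ := gc_wgt_bound (∑' k, b k)
  have hB := hB' b hb le_rfl
  set E := fun L => blockBound (pressure b μ) (1 + 4 * (μ + B) ^ 2) q t (cutCost b L) L
  have hE := tendsto_blockBound (pressure b μ) (1 + 4 * (μ + B) ^ 2) q ht (tendsto_cutCost hb)
  obtain ⟨L, hLE, hL4, hδ⟩ : ∃ L : ℕ, E L < pressure b μ + 1008 * t * q ^ 2 + ε ∧ 4 ≤ L ∧
      cutCost b L ≤ 1 :=
    ((hE.eventually (gt_mem_nhds (by linarith))).and ((eventually_ge_atTop 4).and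
      ((tendsto_cutCost hb).eventually (ge_mem_nhds zero_lt_one)))).exists
  refine ⟨L, fun k hk => le_trans ?_ hLE.le⟩
  have hL : 0 < L := by omega
  have hk' : L ≤ k + 1 := by omega
  have hLr : (0:ℝ) < L := by exact_mod_cast hL
  have hΓ := tauW_le_blockBound hb hM₂ hq hB hP ht ht' (cutCost_nonneg hb L) hδ hL4
  set c := (L:ℝ) ^ 3 * E L with hcdef
  have hc : 0 ≤ c := by
    have h1 := pressure_nonneg hb μ
    have h2 := cutCost_nonneg hb L
    have h3 : 0 ≤ Real.log (1 + 4 * (L:ℝ) ^ 3 / (63 * t)) :=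
      Real.log_nonneg (by linarith [show 0 ≤ 4 * (L:ℝ) ^ 3 / (63 * t) by positivity])
    simp only [hcdef, E, blockBound]
    positivity
  have hb' := coeff_upd hb k ht.le
  have hlim : Tendsto (fun M : ℕ => ((1:ℝ) / L + 2 / M) ^ 3 * c) atTop (𝓝 ((1 / L + 0) ^ 3 * c)) :=
    ((tendsto_const_nhds.add (tendsto_const_div_atTop_nhds_zero_nat (2:ℝ))).pow 3).mul_const c
  have hlim' : ((1:ℝ) / L + 0) ^ 3 * c = E L := by simp only [hcdef]; field_simp; ring
  rw [hlim'] at hlim
  refine le_of_tendsto_of_tendsto ((tendsto_pressure hb' μ).comp tendsto_natCast_atTop_atTop) hlim ?_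
  filter_upwards [eventually_gt_atTop 0] with M hM
  have hMr : (0:ℝ) < M := by exact_mod_cast hM
  simp only [Function.comp_apply]
  have h : gc (box (M:ℝ)) (wgt (upd b k t) μ 0) ≤
      ENNReal.ofReal (Real.exp c) ^ ((M / L + 2) ^ 3) :=
    le_trans (gc_upd_le hb μ hL hk' ht.le M) (pow_le_pow_left' hΓ _)
  rw [← ENNReal.ofReal_pow (Real.exp_nonneg _), ← Real.exp_nat_mul, ← logZ_le_iff hb'] at h
  push_cast at h
  rw [inv_mul_eq_div, div_le_iff₀ (by positivity)]
  refine le_trans h ?_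
  have hdiv : ((M / L : ℕ) : ℝ) ≤ (M:ℝ) / L := Nat.cast_div_le
  calc (((M / L : ℕ) : ℝ) + 2) ^ 3 * c ≤ ((M:ℝ) / L + 2) ^ 3 * c :=
        mul_le_mul_of_nonneg_right (pow_le_pow_left₀ (by positivity) (by linarith) 3) hc
    _ = _ := by field_simp

end Vale.Agent.P171
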