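import Mathlib

/-!
Basic notions for a classical system of particles in three dimensions with a radial pair potential.
-/

open MeasureTheory

namespace Vale.Agent.P171

/-- A point of three dimensional space. -/
abbrev Point := Fin 3 → ℝ

/-- The Euclidean distance. -/
noncomputable def eDist (x y : Point) : ℝ := Real.sqrt (∑ i, (x i - y i) ^ 2)

/-- The pair energy `∑_{i<j} φ(|x_i - x_j|)`. -/
noncomputable def energy (φ : ℝ → ℝ) {N : ℕ} (x : Fin N → Point) : ℝ :=
  ∑ i, ∑ j, if i < j then φ (eDist (x i) (x j)) else 0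

/-- The closed cube `[0,L]^3`. -/
def box (L : ℝ) : Set Point := {x | ∀ i, x i ∈ Set.Icc 0 L}

/-- The configurations of `N` labelled particles in `[0,L]^3`. -/
def configs (L : ℝ) (N : ℕ) : Set (Fin N → Point) := {x | ∀ i, x i ∈ box L}

/-- The canonical partition function. -/
noncomputable def canonical (φ : ℝ → ℝ) (β L : ℝ) (N : ℕ) : ℝ :=
  (∫ x in configs L N, Real.exp (-β * energy φ x)) / (Nat.factorial N)

/-- The grand canonical partition function. -/
noncomputable def grand (φ : ℝ → ℝ) (β z L : ℝ) : ℝ :=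
  ∑' N : ℕ, z ^ N * canonical φ β L N

/-- Stability: the energy of distinct points is at least `-B N`. -/
def IsStable (φ : ℝ → ℝ) : Prop :=
  ∃ B : ℝ, ∀ (N : ℕ) (x : Fin N → Point), Function.Injective x → -B * N ≤ energy φ x

/-- Temperedness: `φ r ≤ C r^(-3-ε)` for large `r`. -/
def IsTempered (φ : ℝ → ℝ) : Prop :=
  ∃ C ε R₀ : ℝ, 0 < C ∧ 0 < ε ∧ 0 < R₀ ∧ ∀ r, R₀ ≤ r → φ r ≤ C * r ^ (-3 - ε)

/-- Boundedness on every compact subinterval of `(0,∞)`. -/
def IsLocallyBoundedOnPos (φ : ℝ → ℝ) : Prop :=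
  ∀ a b : ℝ, 0 < a → ∃ M : ℝ, ∀ r ∈ Set.Icc a b, |φ r| ≤ M

end Vale.Agent.P171
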