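import Vale.Agent.P171.Pair

/-!
The potentials `core - ∑ b_k kern_k` and bounds for their energies.
-/

open Finset

namespace Vale.Agent.P171

/-- The repulsive core: `r⁻⁴` below distance one. -/
noncomputable def core (r : ℝ) : ℝ := if r < 1 then (r ^ 4)⁻¹ else 0

/-- The normalised attractive kernel of range `k+1`. -/
noncomputable def kern (k : ℕ) (r : ℝ) : ℝ :=
  if r < (k:ℝ) + 1 then (((k:ℝ) + 1) ^ 3)⁻¹ else 0

/-- The attraction with nonnegative coefficients `b`. -/
noncomputable def psi (b : ℕ → ℝ) (r : ℝ) : ℝ := ∑' k, b k * kern k r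

/-- The pair potential attached to `b`. -/
noncomputable def pot (b : ℕ → ℝ) (r : ℝ) : ℝ := core r - psi b r

/-- Nonnegative summable coefficient sequences. -/
def Coeff (b : ℕ → ℝ) : Prop := (∀ k, 0 ≤ b k) ∧ Summable b

/-- The energy attached to `b`. -/
noncomputable def en (b : ℕ → ℝ) {n : ℕ} (x : Fin n → Point) : ℝ :=
  psum (fun p q => pot b (eDist p q)) x

/-- The unit cell of a point. -/
noncomputable def cell (p : Point) : Fin 3 → ℤ := fun a => ⌊p a⌋

/-- Indicator of lying in one unit cell. -/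
noncomputable def sameCell (p q : Point) : ℝ := if cell p = cell q then 1 else 0

/-- The number of ordered pairs in a common unit cell. -/
noncomputable def qsum {n : ℕ} (x : Fin n → Point) : ℝ := asum sameCell x

/-- A bound for `kern` depending on the cells only. -/
noncomputable def kcell (k : ℕ) (p q : Point) : ℝ :=
  if close (k + 1) (cell p) (cell q) then (((k:ℝ) + 1) ^ 3)⁻¹ else 0

lemma core_nonneg (r : ℝ) : 0 ≤ core r := by
  unfold core; split_ifs
  · exact inv_nonneg.2 (by positivity)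
  · exact le_rfl

lemma core_of_one_le {r : ℝ} (h : 1 ≤ r) : core r = 0 := if_neg (not_lt.2 h)

lemma kern_nonneg (k : ℕ) (r : ℝ) : 0 ≤ kern k r := by
  unfold kern; split_ifs <;> positivity

lemma kern_le_one (k : ℕ) (r : ℝ) : kern k r ≤ 1 := by
  unfold kern; split_ifs
  · exact inv_le_one_of_one_le₀ (one_le_pow₀ (by linarith [(k.cast_nonneg : (0:ℝ) ≤ k)]))
  · norm_num

lemma kern_antitone (k : ℕ) : Antitone (kern k) := by
  intro r s hrs
  unfold kern
  by_cases hs : s < (k:ℝ) + 1
  · rw [if_pos hs, if_pos (lt_of_le_of_lt hrs hs)]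
  · rw [if_neg hs]; exact kern_nonneg k r

lemma summable_kern {b : ℕ → ℝ} (hb : Coeff b) (r : ℝ) :
    Summable (fun k => b k * kern k r) :=
  Summable.of_nonneg_of_le (fun k => mul_nonneg (hb.1 k) (kern_nonneg k r))
    (fun k => mul_le_of_le_one_right (hb.1 k) (kern_le_one k r)) hb.2

lemma psi_nonneg {b : ℕ → ℝ} (hb : Coeff b) (r : ℝ) : 0 ≤ psi b r :=
  tsum_nonneg fun k => mul_nonneg (hb.1 k) (kern_nonneg k r)

lemma psi_le {b : ℕ → ℝ} (hb : Coeff b) (r : ℝ) : psi b r ≤ ∑' k, b k :=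
  (summable_kern hb r).tsum_le_tsum (fun k => mul_le_of_le_one_right (hb.1 k) (kern_le_one k r)) hb.2

lemma psi_antitone {b : ℕ → ℝ} (hb : Coeff b) : Antitone (psi b) := fun r s h =>
  (summable_kern hb s).tsum_le_tsum
    (fun k => mul_le_mul_of_nonneg_left (kern_antitone k h) (hb.1 k)) (summable_kern hb r)

lemma measurable_pot {b : ℕ → ℝ} (hb : Coeff b) : Measurable (pot b) := by
  refine Measurable.sub ?_ (psi_antitone hb).measurable
  unfold core
  exact Measurable.ite (measurableSet_lt measurable_id measurable_const)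
    ((measurable_id.pow_const 4).inv) measurable_const

lemma measurable_eDist : Measurable (fun z : Point × Point => eDist z.1 z.2) := by
  unfold eDist
  apply Continuous.measurable
  fun_prop

lemma measurable_en {b : ℕ → ℝ} (hb : Coeff b) (n : ℕ) :
    Measurable (fun x : Fin n → Point => en b x) := by
  unfold en psum
  refine (Finset.measurable_sum _ fun i _ => Finset.measurable_sum _ fun j _ => ?_).const_mul _
  by_cases h : i = j
  · simp [h]
  · simp only [if_neg h]
    have h2 : Measurable (fun x : Fin n → Point => (x i, x j)) :=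
      (measurable_pi_apply i).prodMk (measurable_pi_apply j)
    have h3 : Measurable (fun x : Fin n → Point => eDist (x i) (x j)) :=
      Measurable.comp (g := fun z : Point × Point => eDist z.1 z.2) measurable_eDist h2
    exact Measurable.comp (g := pot b) (measurable_pot hb) h3

lemma abs_coord_le_eDist (p q : Point) (a : Fin 3) : |p a - q a| ≤ eDist p q := by
  unfold eDist
  rw [← Real.sqrt_sq_eq_abs]
  exact Real.sqrt_le_sqrt (Finset.single_le_sum (f := fun i => (p i - q i) ^ 2)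
    (fun i _ => sq_nonneg _) (Finset.mem_univ a))

lemma floor_close {a b : ℝ} {c : ℕ} (h : |a - b| < c) : |⌊a⌋ - ⌊b⌋| ≤ (c : ℤ) := by
  obtain ⟨h1, h2⟩ := abs_lt.1 h
  have ha := Int.floor_le a
  have ha' := Int.lt_floor_add_one a
  have hb := Int.floor_le b
  have hb' := Int.lt_floor_add_one b
  have e1 : ((⌊a⌋ - ⌊b⌋ : ℤ) : ℝ) < ((c:ℤ) + 1 : ℤ) := by push_cast; linarith
  have e2 : ((-((c:ℤ) + 1) : ℤ) : ℝ) < (⌊a⌋ - ⌊b⌋ : ℤ) := by push_cast; linarith
  have e1' := Int.cast_lt.1 e1
  have e2' := Int.cast_lt.1 e2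
  rw [abs_le]; omega

lemma kern_le_kcell (k : ℕ) (p q : Point) : kern k (eDist p q) ≤ kcell k p q := by
  unfold kern kcell
  by_cases h : eDist p q < (k:ℝ) + 1
  · have hc : close (k+1) (cell p) (cell q) := fun a =>
      floor_close (by push_cast; exact lt_of_le_of_lt (abs_coord_le_eDist p q a) h)
    rw [if_pos h, if_pos hc]
  · rw [if_neg h]; split_ifs <;> positivity

lemma kcell_nonneg (k : ℕ) (p q : Point) : 0 ≤ kcell k p q := by
  unfold kcell; split_ifs <;> positivity

lemma qsum_nonneg {n : ℕ} (x : Fin n → Point) : 0 ≤ qsum x := by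
  unfold qsum asum
  refine Finset.sum_nonneg fun _ _ => Finset.sum_nonneg fun _ _ => ?_
  unfold sameCell; split_ifs <;> norm_num

lemma asum_kcell_le (k : ℕ) {n : ℕ} (x : Fin n → Point) : asum (kcell k) x ≤ 27 * qsum x := by
  have h := sum_close_le (k+1) (fun i => cell (x i))
  have hk : (0:ℝ) ≤ k := Nat.cast_nonneg k
  have heq : asum (kcell k) x = (((k:ℝ) + 1) ^ 3)⁻¹ *
      ∑ i, ∑ j, if close (k+1) (cell (x i)) (cell (x j)) then (1:ℝ) else 0 := by
    simp only [asum, kcell, Finset.mul_sum, mul_ite, mul_one, mul_zero]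
  rw [heq, inv_mul_le_iff₀ (by positivity)]
  refine le_trans h ?_
  have h2 : (2 * ((k+1 : ℕ):ℝ) + 1) ^ 3 ≤ 27 * ((k:ℝ) + 1) ^ 3 := by
    calc (2 * ((k+1 : ℕ):ℝ) + 1) ^ 3 ≤ (3 * ((k:ℝ) + 1)) ^ 3 :=
          pow_le_pow_left₀ (by positivity) (by push_cast; linarith) 3
      _ = _ := by ring
  calc _ ≤ (27 * ((k:ℝ) + 1) ^ 3) * qsum x := mul_le_mul_of_nonneg_right h2 (qsum_nonneg x)
    _ = _ := by ring

lemma psum_kern_le (k : ℕ) {n : ℕ} (x : Fin n → Point) :
    psum (fun p q => kern k (eDist p q)) x ≤ 14 * qsum x := by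
  refine le_trans (psum_le_psum fun i j _ => kern_le_kcell k _ _) ?_
  refine le_trans (psum_le_half_asum fun i => kcell_nonneg _ _ _) ?_
  have := asum_kcell_le k x
  have := qsum_nonneg x
  linarith

lemma en_hasSum {b : ℕ → ℝ} (hb : Coeff b) {n : ℕ} (x : Fin n → Point) :
    HasSum (fun k => b k * psum (fun p q => kern k (eDist p q)) x)
      (psum (fun p q => core (eDist p q)) x - en b x) := by
  have h := psum_hasSum (f := fun k p q => b k * kern k (eDist p q))
    (g := fun p q => psi b (eDist p q)) x fun i j => (summable_kern hb _).hasSum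
  simp only [psum_const_mul] at h
  have he : en b x = psum (fun p q => core (eDist p q)) x - psum (fun p q => psi b (eDist p q)) x := by
    rw [en, ← psum_sub]; rfl
  rw [he, sub_sub_cancel]
  exact h

lemma attraction_le {b : ℕ → ℝ} (hb : Coeff b) {n : ℕ} (x : Fin n → Point) :
    psum (fun p q => core (eDist p q)) x - en b x ≤ 14 * (∑' k, b k) * qsum x := by
  refine hasSum_le (fun k => ?_) (en_hasSum hb x)
    (((hb.2.hasSum).mul_left 14).mul_right (qsum x))
  calc b k * psum (fun p q => kern k (eDist p q)) x ≤ b k * (14 * qsum x) :=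
        mul_le_mul_of_nonneg_left (psum_kern_le k x) (hb.1 k)
    _ = _ := by ring

lemma core_sum_ge (m : ℕ) (hm : 2 ≤ m) {n : ℕ} (x : Fin n → Point) (hx : Function.Injective x) :
    (m:ℝ) / 864 * qsum x - (m:ℝ) ^ 4 / 32 * n ≤ psum (fun p q => core (eDist p q)) x := by
  classical
  have hmpos : (0:ℝ) < m := by exact_mod_cast (by omega : 0 < m)
  have hm2 : (2:ℝ) ≤ m := by exact_mod_cast hm
  let cm : Point → (Fin 3 → ℤ) := fun p a => ⌊(m:ℝ) * p a⌋
  let S : Point → Point → ℝ := fun p q => if cm p = cm q then 1 else 0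
  have h1 : psum (fun p q => (m:ℝ) ^ 4 / 16 * S p q) x ≤ psum (fun p q => core (eDist p q)) x := by
    refine psum_le_psum fun i j hij => ?_
    by_cases h : cm (x i) = cm (x j)
    · simp only [S, if_pos h, mul_one]
      set d := eDist (x i) (x j) with hd
      have hc : ∀ a, (x i a - x j a) ^ 2 < 1 / (m:ℝ) ^ 2 := by
        intro a
        have hh : ⌊(m:ℝ) * x i a⌋ = ⌊(m:ℝ) * x j a⌋ := congrFun h a
        have hl := Int.abs_sub_lt_one_of_floor_eq_floor hh
        rw [← mul_sub, abs_mul, abs_of_pos hmpos] at hl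
        rw [lt_div_iff₀ (by positivity), ← sq_abs, ← mul_pow]
        have : |x i a - x j a| * m < 1 := by linarith
        exact pow_lt_one₀ (by positivity) this (by norm_num)
      have hsq : d ^ 2 < 3 / (m:ℝ) ^ 2 := by
        rw [hd, eDist, Real.sq_sqrt (Finset.sum_nonneg fun a _ => sq_nonneg _), Fin.sum_univ_three]
        have h3 : 3 / (m:ℝ) ^ 2 = 3 * (1 / (m:ℝ) ^ 2) := by ring
        linarith [hc 0, hc 1, hc 2]
      have hd0 : 0 < d := by
        by_contra h0
        apply hij; apply hx; funext a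
        have h' := abs_coord_le_eDist (x i) (x j) a
        rw [← hd] at h'
        have : |x i a - x j a| ≤ 0 := h'.trans (not_lt.1 h0)
        exact sub_eq_zero.1 (abs_nonpos_iff.1 this)
      rw [lt_div_iff₀ (by positivity)] at hsq
      have hm4 : (4:ℝ) ≤ (m:ℝ) ^ 2 := by nlinarith
      have hd4 : d ^ 2 * 4 ≤ d ^ 2 * (m:ℝ) ^ 2 := mul_le_mul_of_nonneg_left hm4 (sq_nonneg d)
      have hd1 : d < 1 := by nlinarith
      rw [core, if_pos hd1]
      rw [le_inv_comm₀ (by positivity) (by positivity), inv_div, le_div_iff₀ (by positivity)]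
      have : d ^ 4 * (m:ℝ) ^ 4 = (d ^ 2 * (m:ℝ) ^ 2) ^ 2 := by ring
      have h9 : (d ^ 2 * (m:ℝ) ^ 2) ^ 2 ≤ 3 ^ 2 := pow_le_pow_left₀ (by positivity) hsq.le 2
      linarith
    · simp only [S, if_neg h, mul_zero]; exact core_nonneg _
  rw [psum_const_mul, psum_eq_half_asum_sub] at h1
  have hdiag : (∑ i, S (x i) (x i)) = n := by simp [S]
  rw [hdiag] at h1
  have hS0 : 0 ≤ asum S x := Finset.sum_nonneg fun _ _ => Finset.sum_nonneg fun _ _ => by
    simp only [S]; split_ifs <;> norm_num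
  have hQ : qsum x ≤ 27 * (m:ℝ) ^ 3 * asum S x := by
    refine le_trans ?_ (mul_le_mul_of_nonneg_right (show (2 * (m:ℝ) + 1) ^ 3 ≤ 27 * (m:ℝ) ^ 3 by
      calc (2 * (m:ℝ) + 1) ^ 3 ≤ (3 * (m:ℝ)) ^ 3 := pow_le_pow_left₀ (by positivity) (by linarith) 3
        _ = _ := by ring) hS0)
    refine le_trans ?_ (sum_close_le m fun i => cm (x i))
    unfold qsum asum
    refine Finset.sum_le_sum fun i _ => Finset.sum_le_sum fun j _ => ?_
    by_cases h : cell (x i) = cell (x j)
    · have hc : close m (cm (x i)) (cm (x j)) := fun a => by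
        refine floor_close ?_
        have hl := Int.abs_sub_lt_one_of_floor_eq_floor (congrFun h a)
        rw [← mul_sub, abs_mul, abs_of_pos hmpos]
        nlinarith [abs_nonneg (x i a - x j a)]
      rw [sameCell, if_pos h, if_pos hc]
    · rw [sameCell, if_neg h]; split_ifs <;> norm_num
  have h2 : (m:ℝ) / 864 * qsum x ≤ (m:ℝ) ^ 4 / 32 * asum S x := by
    calc (m:ℝ) / 864 * qsum x ≤ (m:ℝ) / 864 * (27 * (m:ℝ) ^ 3 * asum S x) :=
          mul_le_mul_of_nonneg_left hQ (by positivity)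
      _ = _ := by ring
  linarith

/-- The energy dominates every multiple of the number of close pairs. -/
theorem en_lower (A M : ℝ) : ∃ B : ℝ, 0 ≤ B ∧ ∀ b : ℕ → ℝ, Coeff b → (∑' k, b k) ≤ M →
    ∀ (n : ℕ) (x : Fin n → Point), Function.Injective x → A * qsum x - B * n ≤ en b x := by
  obtain ⟨m, hm⟩ := exists_nat_ge (max 2 (864 * (A + 14 * M)))
  have hm2 : 2 ≤ m := by exact_mod_cast (le_max_left _ _).trans hm
  refine ⟨(m:ℝ) ^ 4 / 32, by positivity, fun b hb hM n x hx => ?_⟩
  have h1 := core_sum_ge m hm2 x hx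
  have h2 := attraction_le hb x
  have hQ := qsum_nonneg x
  have h3 : 14 * (∑' k, b k) * qsum x ≤ 14 * M * qsum x :=
    mul_le_mul_of_nonneg_right (by linarith) hQ
  have h4 : (A + 14 * M) * qsum x ≤ (m:ℝ) / 864 * qsum x :=
    mul_le_mul_of_nonneg_right (by linarith [(le_max_right _ _).trans hm]) hQ
  nlinarith

lemma natCast_le_qsum {n : ℕ} (x : Fin n → Point) : (n:ℝ) ≤ qsum x := by
  have : (n:ℝ) = ∑ i : Fin n, sameCell (x i) (x i) := by simp [sameCell]
  rw [this]
  exact Finset.sum_le_sum fun i _ => Finset.single_le_sum (f := fun j => sameCell (x i) (x j))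
    (fun j _ => by unfold sameCell; split_ifs <;> norm_num) (Finset.mem_univ i)

/-- Cauchy's inequality for the occupation numbers of cells in a cube. -/
lemma sq_card_le_qsum (L : ℕ) {n : ℕ} (x : Fin n → Point) (hx : ∀ i, x i ∈ box L) :
    (n:ℝ) ^ 2 ≤ 8 * ((L:ℝ) + 1) ^ 3 * qsum x := by
  have hclose : ∀ i j, close L (cell (x i)) (cell (x j)) := by
    intro i j a
    have hb : ∀ i, 0 ≤ ⌊x i a⌋ ∧ ⌊x i a⌋ ≤ (L:ℤ) := fun i => by
      obtain ⟨h0, h1⟩ := hx i a
      refine ⟨Int.floor_nonneg.2 h0, ?_⟩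
      have := Int.floor_le_floor h1
      simpa using this
    obtain ⟨h1, h2⟩ := hb i
    obtain ⟨h3, h4⟩ := hb j
    show |⌊x i a⌋ - ⌊x j a⌋| ≤ _
    rw [abs_le]; omega
  have h := sum_close_le L (fun i => cell (x i))
  simp only [hclose, if_true, Finset.sum_const, Finset.card_univ, Fintype.card_fin,
    nsmul_eq_mul, mul_one] at h
  refine le_trans (le_of_eq (by ring)) (le_trans h ?_)
  refine mul_le_mul_of_nonneg_right ?_ (qsum_nonneg x)
  calc (2 * (L:ℝ) + 1) ^ 3 ≤ (2 * ((L:ℝ) + 1)) ^ 3 := pow_le_pow_left₀ (by positivity) (by linarith) 3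
    _ = _ := by ring

lemma isStable_pot {b : ℕ → ℝ} (hb : Coeff b) : IsStable (pot b) := by
  obtain ⟨B, _, hB⟩ := en_lower 0 (∑' k, b k)
  refine ⟨B, fun N x hx => ?_⟩
  have := hB b hb le_rfl N x hx
  rw [energy_eq_psum]
  simpa [en] using this

lemma isTempered_pot {b : ℕ → ℝ} (hb : Coeff b) : IsTempered (pot b) := by
  refine ⟨1, 1, 1, one_pos, one_pos, one_pos, fun r hr => ?_⟩
  rw [pot, core_of_one_le hr]
  have h1 := psi_nonneg hb r
  have h2 : 0 ≤ r ^ (-3 - (1:ℝ)) := Real.rpow_nonneg (by linarith) _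
  linarith

lemma isLocallyBounded_pot {b : ℕ → ℝ} (hb : Coeff b) : IsLocallyBoundedOnPos (pot b) := by
  intro a c ha
  refine ⟨(a ^ 4)⁻¹ + ∑' k, b k, fun r hr => ?_⟩
  have h1 := psi_nonneg hb r
  have h2 := psi_le hb r
  have h3 := core_nonneg r
  have h4 : core r ≤ (a ^ 4)⁻¹ := by
    unfold core; split_ifs
    · exact inv_anti₀ (by positivity) (pow_le_pow_left₀ ha.le hr.1 4)
    · positivity
  rw [pot, abs_le]; constructor <;> linarith [inv_nonneg.2 (pow_nonneg ha.le 4)]

end Vale.Agent.P171
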