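import Vale.Agent.P171.Trial
import Vale.Agent.P171.Decouple

/-!
A variational principle produces a potential whose pressure has a corner.
-/

open MeasureTheory Finset Filter
open scoped ENNReal Nat Topology

namespace Vale.Agent.P171

/-- Ekeland's variational principle in a complete metric space. -/
theorem ekeland {X : Type*} [MetricSpace X] [CompleteSpace X] [Nonempty X] (F : X → ℝ)
    (hF : ∀ x, 0 ≤ F x) {ε : ℝ} (hε : 0 < ε)
    (hclosed : ∀ x, IsClosed {y | F y + ε * dist x y ≤ F x}) :
    ∃ x, ∀ y, F x ≤ F y + ε * dist x y := by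
  let S : X → Set X := fun x => {y | F y + ε * dist x y ≤ F x}
  have self : ∀ x, x ∈ S x := fun x => by simp [S]
  have step : ∀ (n : ℕ) (x : X), ∃ y ∈ S x, ∀ z ∈ S x, F y ≤ F z + 1 / ((n:ℝ) + 1) := by
    intro n x
    have hne : (F '' S x).Nonempty := ⟨_, x, self x, rfl⟩
    have hbd : BddBelow (F '' S x) := ⟨0, by rintro _ ⟨z, _, rfl⟩; exact hF z⟩
    obtain ⟨_, ⟨y, hy, rfl⟩, hlt⟩ := exists_lt_of_csInf_lt hne
      (lt_add_of_pos_right (sInf (F '' S x)) (show (0:ℝ) < 1 / ((n:ℝ) + 1) by positivity))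
    exact ⟨y, hy, fun z hz => by linarith [csInf_le hbd ⟨z, hz, rfl⟩]⟩
  choose g hg1 hg2 using step
  let x : ℕ → X := fun n => Nat.rec (Classical.arbitrary X) (fun k a => g k a) n
  have trans : ∀ a b c, b ∈ S a → c ∈ S b → c ∈ S a := fun a b c h1 h2 => by
    simp only [S, Set.mem_ofPred_eq] at *
    nlinarith [mul_le_mul_of_nonneg_left (dist_triangle a b c) hε.le]
  have nest : ∀ n m, n ≤ m → x m ∈ S (x n) := by
    intro n m h
    induction m, h using Nat.le_induction with
    | base => exact self _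
    | succ m _ ih => exact trans _ _ _ ih (hg1 m (x m))
  have small : ∀ n, ∀ z ∈ S (x (n + 1)), ε * dist (x (n + 1)) z ≤ 1 / ((n:ℝ) + 1) := fun n z hz => by
    have h1 := hg2 n (x n) z (trans _ _ _ (hg1 n (x n)) hz)
    have h2 : F z + ε * dist (x (n + 1)) z ≤ F (x (n + 1)) := hz
    have h3 : x (n + 1) = g n (x n) := rfl
    rw [← h3] at h1
    linarith
  have hlim : Tendsto (fun n : ℕ => 1 / ((n:ℝ) + 1) / ε) atTop (𝓝 0) := by
    simpa using tendsto_one_div_add_atTop_nhds_zero_nat.div_const ε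
  have hdist : ∀ n, ∀ z ∈ S (x (n + 1)), dist (x (n + 1)) z ≤ 1 / ((n:ℝ) + 1) / ε := fun n z hz => by
    rw [le_div_iff₀ hε, mul_comm]; exact small n z hz
  have hc : CauchySeq (fun n => x (n + 1)) :=
    cauchySeq_of_le_tendsto_0' _ (fun n m hnm => hdist n _ (nest (n + 1) (m + 1) (by omega))) hlim
  obtain ⟨a, ha⟩ := cauchySeq_tendsto_of_complete hc
  have hmem : ∀ n, a ∈ S (x n) := fun n =>
    (hclosed (x n)).mem_of_tendsto ha
      (eventually_atTop.2 ⟨n, fun m hm => nest n (m + 1) (by omega)⟩)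
  refine ⟨a, fun y => ?_⟩
  by_contra h
  have hy : y ∈ S a := le_of_lt (not_le.1 h)
  have hya : Tendsto (fun n => x (n + 1)) atTop (𝓝 y) := by
    refine tendsto_iff_dist_tendsto_zero.2 (squeeze_zero (fun n => dist_nonneg)
      (fun n => hdist n y (trans _ _ _ (hmem (n + 1)) hy)) hlim)
  have : a = y := tendsto_nhds_unique ha hya
  subst this
  simp at h

/-- The complete space of nonnegative summable coefficients and chemical potentials. -/
abbrev Param := {b : lp (fun _ : ℕ => ℝ) 1 // ∀ k, 0 ≤ b k} × ℝ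

/-- The coefficients of a parameter. -/
def cf (y : Param) : ℕ → ℝ := fun k => y.1.1 k

lemma summable_abs_lp (b : lp (fun _ : ℕ => ℝ) 1) :
    HasSum (fun k => |b k|) ‖b‖ := by
  simpa using lp.hasSum_norm (by norm_num) b

lemma coeff_cf (y : Param) : Coeff (cf y) :=
  ⟨y.1.2, (summable_abs_lp y.1.1).summable.of_abs⟩

lemma hasSum_abs_sub (y z : Param) :
    HasSum (fun k => |cf y k - cf z k|) ‖y.1.1 - z.1.1‖ := by
  simpa [cf] using summable_abs_lp (y.1.1 - z.1.1)

lemma norm_sub_le_dist (y z : Param) : ‖y.1.1 - z.1.1‖ ≤ dist y z := by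
  rw [← dist_eq_norm]; exact le_max_left _ _

instance : CompleteSpace {b : lp (fun _ : ℕ => ℝ) 1 // ∀ k, 0 ≤ b k} := by
  have hc : IsClosed {b : lp (fun _ : ℕ => ℝ) 1 | ∀ k, 0 ≤ b k} := by
    simp only [Set.ofPred_forall]
    refine isClosed_iInter fun k => isClosed_le continuous_const ?_
    refine (LipschitzWith.of_dist_le_mul (K := 1) fun a b => ?_).continuous
    rw [NNReal.coe_one, one_mul, dist_eq_norm, dist_eq_norm]
    simpa using lp.norm_apply_le_norm one_ne_zero (a - b) k
  exact hc.completeSpace_coe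

instance : Nonempty Param := ⟨(⟨0, fun k => le_of_eq (by simp)⟩, 0)⟩

lemma abs_en_sub_le (y z : Param) {n : ℕ} (x : Fin n → Point) :
    |en (cf y) x - en (cf z) x| ≤ 14 * qsum x * ‖y.1.1 - z.1.1‖ := by
  have h := (en_hasSum (coeff_cf y) x).sub (en_hasSum (coeff_cf z) x)
  have hb := (hasSum_abs_sub y z).mul_left (14 * qsum x)
  set K := fun k => psum (fun p q => kern k (eDist p q)) x with hK
  have hpt : ∀ k, |cf y k * K k - cf z k * K k| ≤ 14 * qsum x * |cf y k - cf z k| := fun k => by
    rw [← sub_mul, abs_mul, mul_comm]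
    refine mul_le_mul_of_nonneg_right ?_ (abs_nonneg _)
    rw [abs_of_nonneg (psum_nonneg fun i j _ => kern_nonneg _ _)]
    exact psum_kern_le k x
  have h1 := hasSum_le (fun k => (abs_le.1 (hpt k)).2) h hb
  have h2 := hasSum_le (fun k => (abs_le.1 (hpt k)).1) hb.neg h
  rw [abs_le]; constructor <;> linarith

/-- The comparison functional of the mixture of the empty and the lattice configuration. -/
noncomputable def ell (p : ℝ) (y : Param) : ℝ := p * (y.2 - cost + ∑' k, cf y k * tcoef k)

/-- The functional to be minimised. -/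
noncomputable def gap (p : ℝ) (y : Param) : ℝ := pressure (cf y) y.2 - ell p y

lemma summable_tcoef {b : ℕ → ℝ} (hb : Coeff b) : Summable fun k => b k * tcoef k :=
  Summable.of_nonneg_of_le (fun k => mul_nonneg (hb.1 k) (tcoef_nonneg k))
    (fun k => mul_le_mul_of_nonneg_left (tcoef_le k) (hb.1 k)) (hb.2.mul_right 4)

lemma gap_nonneg {p : ℝ} (h0 : 0 ≤ p) (h1 : p ≤ 1) (y : Param) : 0 ≤ gap p y := by
  have a := trial_bound (coeff_cf y) y.2
  have b := pressure_nonneg (coeff_cf y) y.2
  rw [gap, ell]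
  nlinarith

lemma continuous_tcoef_sum : Continuous fun y : Param => ∑' k, cf y k * tcoef k := by
  refine (LipschitzWith.of_dist_le_mul (K := 4) fun y z => ?_).continuous
  rw [Real.dist_eq, ← (summable_tcoef (coeff_cf y)).tsum_sub (summable_tcoef (coeff_cf z))]
  have hb := (hasSum_abs_sub y z).mul_left 4
  have hpt : ∀ k, |cf y k * tcoef k - cf z k * tcoef k| ≤ 4 * |cf y k - cf z k| := fun k => by
    rw [← sub_mul, abs_mul, mul_comm, abs_of_nonneg (tcoef_nonneg k)]
    exact mul_le_mul_of_nonneg_right (tcoef_le k) (abs_nonneg _)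
  have h := ((summable_tcoef (coeff_cf y)).sub (summable_tcoef (coeff_cf z))).hasSum
  have h1 := hasSum_le (fun k => (abs_le.1 (hpt k)).2) h hb
  have h2 := hasSum_le (fun k => (abs_le.1 (hpt k)).1) hb.neg h
  have h3 := norm_sub_le_dist y z
  rw [abs_le]; push_cast; constructor <;> linarith

lemma continuous_wgt (n : ℕ) (x : Fin n → Point) :
    Continuous fun y : Param => wgt (cf y) y.2 0 n x := by
  by_cases h : Function.Injective x
  · simp only [wgt_of_inj h]
    have hen : Continuous fun y : Param => en (cf y) x := by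
      refine (LipschitzWith.of_dist_le_mul (K := (14 * qsum x).toNNReal) fun y z => ?_).continuous
      rw [Real.dist_eq, Real.coe_toNNReal _ (mul_nonneg (by norm_num) (qsum_nonneg x))]
      exact le_trans (abs_en_sub_le y z x)
        (mul_le_mul_of_nonneg_left (norm_sub_le_dist y z) (mul_nonneg (by norm_num) (qsum_nonneg x)))
    exact ENNReal.continuous_ofReal.comp
      (Real.continuous_exp.comp (((continuous_snd.mul continuous_const).sub hen).add continuous_const))
  · simp only [wgt_of_not_inj h]; exact continuous_const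

lemma gc_le_of_tendsto (S : Set Point) {u : ℕ → Param} {y : Param} (hu : Tendsto u atTop (𝓝 y))
    {R : ℕ → ℝ≥0∞} {r : ℝ≥0∞} (hR : Tendsto R atTop (𝓝 r))
    (h : ∀ i, gc S (wgt (cf (u i)) (u i).2 0) ≤ R i) : gc S (wgt (cf y) y.2 0) ≤ r := by
  set J : ℕ → ℕ → ℝ≥0∞ := fun i n =>
    (n ! : ℝ≥0∞)⁻¹ * ∫⁻ x in cfg S n, wgt (cf (u i)) (u i).2 0 n x
  have h1 : ∀ n, (n ! : ℝ≥0∞)⁻¹ * ∫⁻ x in cfg S n, wgt (cf y) y.2 0 n x
      ≤ liminf (fun i => J i n) atTop := by
    intro n
    have hc : (n ! : ℝ≥0∞)⁻¹ ≠ ⊤ := ENNReal.inv_ne_top.2 (by exact_mod_cast n.factorial_ne_zero)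
    simp only [J, ← lintegral_const_mul _ (measurable_wgt (coeff_cf _) _ _ n)]
    refine le_trans (le_of_eq (lintegral_congr fun x => ?_))
      (lintegral_liminf_le fun i => (measurable_wgt (coeff_cf _) _ _ n).const_mul _)
    exact ((ENNReal.Tendsto.const_mul (((continuous_wgt n x).tendsto y).comp hu)
      (Or.inr hc)).liminf_eq).symm
  calc gc S (wgt (cf y) y.2 0) ≤ ∑' n, liminf (fun i => J i n) atTop := ENNReal.tsum_le_tsum h1
    _ = ∫⁻ n, liminf (fun i => J i n) atTop ∂Measure.count := (lintegral_count _).symm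
    _ ≤ liminf (fun i => ∫⁻ n, J i n ∂Measure.count) atTop :=
        lintegral_liminf_le fun i => measurable_from_top
    _ ≤ liminf R atTop := by
        refine liminf_le_liminf (Eventually.of_forall fun i => ?_)
        show ∫⁻ n, J i n ∂Measure.count ≤ R i
        rw [lintegral_count]; exact h i
    _ = r := hR.liminf_eq

lemma isClosed_gap (p ε : ℝ) (x : Param) :
    IsClosed {y | gap p y + ε * dist x y ≤ gap p x} := by
  refine IsSeqClosed.isClosed fun u y hu hy => ?_
  have hell : Continuous (ell p) :=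
    continuous_const.mul ((continuous_snd.sub continuous_const).add continuous_tcoef_sum)
  have hg : Continuous fun y => gap p x + ell p y - ε * dist x y :=
    (continuous_const.add hell).sub (continuous_const.mul (continuous_const.dist continuous_id))
  suffices h : pressure (cf y) y.2 ≤ gap p x + ell p y - ε * dist x y by
    show gap p y + ε * dist x y ≤ gap p x
    simp only [gap] at h ⊢; linarith
  rw [pressure_le_iff (coeff_cf y)]
  intro L
  refine gc_le_of_tendsto _ hy (R := fun i => ENNReal.ofReal (Real.exp (((L:ℝ) + 1) ^ 3 *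
    (gap p x + ell p (u i) - ε * dist x (u i))))) ?_ fun i => ?_
  · exact ((ENNReal.continuous_ofReal.comp (Real.continuous_exp.comp
      (continuous_const.mul hg))).tendsto y).comp hy
  · have hi : gap p (u i) + ε * dist x (u i) ≤ gap p x := hu i
    refine (pressure_le_iff (coeff_cf _) _ _).1 ?_ L
    rw [gap] at hi; linarith

/-- A parameter at which the pressure has a corner in the chemical potential. -/
theorem exists_corner : ∃ y : Param, ¬ DifferentiableAt ℝ (pressure (cf y)) y.2 := by
  set p : ℝ := 1 / 200000 with hp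
  set ε : ℝ := p ^ 2 with hεdef
  have hp0 : 0 < p := by rw [hp]; norm_num
  have hε : 0 < ε := by positivity
  have hp1 : p ≤ 1 := by rw [hp]; norm_num
  obtain ⟨y, hy⟩ := ekeland (gap p) (gap_nonneg hp0.le hp1) hε (isClosed_gap p ε)
  refine ⟨y, fun hdiff => ?_⟩
  have hb := coeff_cf y
  set b := cf y with hbdef
  set μ := y.2 with hμdef
  set P₀ := pressure b μ
  obtain ⟨D, hD⟩ : ∃ D, HasDerivAt (pressure b) D μ := ⟨_, hdiff.hasDerivAt⟩
  -- moving the chemical potential
  have hmove : ∀ s, P₀ + p * s ≤ pressure b (μ + s) + ε * |s| := fun s => by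
    have h := hy (y.1, μ + s)
    have hd : dist y (y.1, μ + s) = |s| := by
      rw [Prod.dist_eq]; simp [hμdef, Real.dist_eq]
    rw [hd] at h
    have e : cf (y.1, μ + s) = b := rfl
    simp only [gap, ell, e, ← hbdef, ← hμdef] at h
    nlinarith
  have hDle : D ≤ p + ε := by
    refine le_of_tendsto ((hD.tendsto_slope).mono_left
      (nhdsWithin_mono μ (fun a (ha : a ∈ Set.Iio μ) => ne_of_lt ha))) ?_
    filter_upwards [self_mem_nhdsWithin] with a ha
    have ha' : a < μ := ha
    have h := hmove (a - μ)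
    rw [add_sub_cancel, abs_of_neg (by linarith)] at h
    rw [slope_def_field, div_le_iff_of_neg (by linarith)]
    linarith
  set q := p + 2 * ε with hqdef
  have hev := ((hD.tendsto_slope).mono_left (nhdsWithin_mono μ
    (fun a (ha : a ∈ Set.Ioi μ) => ne_of_gt ha))).eventually (gt_mem_nhds (show D < q by linarith))
  obtain ⟨u, hu, hIoo⟩ := mem_nhdsGT_iff_exists_Ioo_subset.1 hev
  set s₀ := u - μ with hs₀
  have hs₀pos : 0 < s₀ := by rw [hs₀]; exact sub_pos.2 hu
  obtain ⟨B, hB⟩ := pressure_quadratic hb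
  set M₂ := (1 + 4 * (μ + B) ^ 2) / s₀ ^ 2 + 4 with hM₂def
  have hM₂ : 0 ≤ M₂ := by positivity
  have hq : 0 ≤ q := by positivity
  have hP₀ : 0 ≤ P₀ := pressure_nonneg hb μ
  have hPs : ∀ s, 0 ≤ s → pressure b (μ + s) ≤ P₀ + q * s + M₂ * s ^ 2 := by
    intro s hs
    rcases eq_or_lt_of_le hs with rfl | hs'
    · simp [P₀]
    by_cases hlt : s < s₀
    · have hmem : μ + s ∈ Set.Ioo μ u := ⟨by linarith, by rw [hs₀] at hlt; linarith⟩
      have h : slope (pressure b) μ (μ + s) < q := hIoo hmem
      rw [slope_def_field, add_sub_cancel_left, div_lt_iff₀ hs'] at h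
      nlinarith
    · have h1 := hB (μ + s)
      have hss : s₀ ^ 2 ≤ s ^ 2 := pow_le_pow_left₀ hs₀pos.le (not_lt.1 hlt) 2
      have h2 : 1 + 4 * (μ + B) ^ 2 ≤ (1 + 4 * (μ + B) ^ 2) / s₀ ^ 2 * s ^ 2 := by
        rw [div_mul_eq_mul_div, le_div_iff₀ (by positivity)]
        exact mul_le_mul_of_nonneg_left hss (by positivity)
      have h3 : 0 ≤ q * s := by positivity
      rw [hM₂def]
      nlinarith [sq_nonneg (μ + B - s)]
  set t := 1 / (252 * (4 * (M₂ + 4))) with htdef
  have ht : 0 < t := by positivity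
  have ht' : 4 * (M₂ + 4) ≤ 1 / (252 * t) := le_of_eq (by rw [htdef]; field_simp)
  obtain ⟨k₀, hk₀⟩ := attraction_upper hb μ q M₂ hM₂ hq hPs ht ht' (ε := t * ε) (by positivity)
  set k := max k₀ 3
  have hup := hk₀ k (le_max_left _ _)
  -- moving the coefficient number `k`
  let b' : lp (fun _ : ℕ => ℝ) 1 := y.1.1 + lp.single 1 k t
  have hb'k : ∀ j, b' j = upd b k t j := fun j => by
    simp [b', upd, hbdef, cf, Pi.single_apply]
  have hb'0 : ∀ j, 0 ≤ b' j := fun j => by rw [hb'k]; exact (coeff_upd hb k ht.le).1 j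
  let y' : Param := (⟨b', hb'0⟩, μ)
  have hy' := hy y'
  have e : cf y' = upd b k t := funext hb'k
  have hd : dist y y' ≤ t := by
    rw [Prod.dist_eq, Subtype.dist_eq, dist_eq_norm]
    simp only [y', b', hμdef, dist_self, sub_add_cancel_left, norm_neg]
    refine max_le (le_of_eq ?_) ht.le
    exact (lp.norm_single (E := fun _ : ℕ => ℝ) (p := 1) (by norm_num) k t).trans (by rw [Real.norm_eq_abs, abs_of_pos ht])
  have hsum : ∑' j, upd b k t j * tcoef j = ∑' j, b j * tcoef j + t * tcoef k := by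
    refine HasSum.tsum_eq ?_
    have := (summable_tcoef hb).hasSum.add (hasSum_ite_eq k (t * tcoef k))
    convert this using 2 with j
    unfold upd
    split_ifs with h
    · subst h; ring
    · ring
  simp only [gap, ell, e, ← hbdef, show y'.2 = μ from rfl, ← hμdef, hsum] at hy'
  have hεd : ε * dist y y' ≤ ε * t := mul_le_mul_of_nonneg_left hd hε.le
  have hT := one_div_32_le_tcoef k (le_max_right _ _)
  have hfin : t * (p / 32) ≤ t * (1008 * q ^ 2 + 2 * ε) := by
    have h1 : p * (t * (1/32)) ≤ p * (t * tcoef k) :=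
      mul_le_mul_of_nonneg_left (mul_le_mul_of_nonneg_left hT ht.le) hp0.le
    have h2 : p * (t * tcoef k) ≤ pressure (upd b k t) μ - pressure b μ + ε * dist y y' := by
      clear_value p ε t b μ
      generalize (∑' (j : ℕ), b j * tcoef j) = S at hy'
      linarith [mul_add p (μ - cost + S) (t * tcoef k)]
    clear_value p ε t q b μ
    have e1 : t * (p / 32) = p * (t * (1 / 32)) := by ring
    have e2 : t * (1008 * q ^ 2 + 2 * ε) = 1008 * t * q ^ 2 + t * ε + ε * t := by ring
    rw [e1, e2]
    linarith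
  have hfin' := le_of_mul_le_mul_left hfin ht
  rw [hqdef, hεdef, hp] at hfin'
  norm_num at hfin'

lemma ae_injective (n : ℕ) : ∀ᵐ x : Fin n → Point, Function.Injective x := by
  have h : ∀ i j : Fin n, i ≠ j → volume {x : Fin n → Point | x i = x j} = 0 := by
    intro i j hij
    let W : Submodule ℝ (Fin n → Point) :=
      LinearMap.ker ((LinearMap.proj i : (Fin n → Point) →ₗ[ℝ] Point) - LinearMap.proj j)
    have hW : {x : Fin n → Point | x i = x j} = (W : Set (Fin n → Point)) := by
      ext x; simp [W, sub_eq_zero]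
    rw [hW]
    refine Measure.addHaar_submodule _ W fun htop => ?_
    have : (Pi.single i (fun _ => (1:ℝ)) : Fin n → Point) ∈ W := htop ▸ Submodule.mem_top
    have h' : (Pi.single i (fun _ => (1:ℝ)) : Fin n → Point) i = (Pi.single i (fun _ => (1:ℝ)) : Fin n → Point) j := by
      rw [← sub_eq_zero]; simpa [W] using this
    rw [Pi.single_eq_same, Pi.single_eq_of_ne hij.symm] at h'
    exact one_ne_zero (congrFun h' 0)
  have hall : ∀ i j : Fin n, ∀ᵐ x : Fin n → Point, x i = x j → i = j := by
    intro i j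
    by_cases hij : i = j
    · exact Eventually.of_forall fun x _ => hij
    · rw [ae_iff]
      simpa [hij] using h i j hij
  filter_upwards [ae_all_iff.2 fun i => ae_all_iff.2 (hall i)] with x hx
  exact fun i j => hx i j

lemma configs_eq (L : ℝ) (N : ℕ) : configs L N = cfg (box L) N := rfl

lemma canonical_facts {b : ℕ → ℝ} (hb : Coeff b) (μ L : ℝ) (N : ℕ) :
    IntegrableOn (fun x : Fin N → Point => Real.exp (-1 * energy (pot b) x)) (configs L N) ∧
      Real.exp μ ^ N * canonical (pot b) 1 L N =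
        ((N ! : ℝ≥0∞)⁻¹ * ∫⁻ x in cfg (box L) N, wgt b μ 0 N x).toReal := by
  have hnorm : ∀ c : ℝ, (fun x : Fin N → Point => ENNReal.ofReal (Real.exp (c * N + -1 * energy (pot b) x)))
      =ᵐ[volume.restrict (cfg (box L) N)] fun x => wgt b c 0 N x := by
    intro c
    filter_upwards [ae_restrict_of_ae (ae_injective N)] with x hx
    rw [wgt_of_inj hx, energy_eq_psum]
    simp [en, sub_eq_add_neg]
  have hm : ∀ c : ℝ, Measurable fun x : Fin N → Point => Real.exp (c * N + -1 * energy (pot b) x) := by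
    intro c
    simp only [energy_eq_psum]
    exact (((measurable_en hb N).const_mul (-1)).const_add (c * N)).exp
  have hfin : ∀ c : ℝ, ∫⁻ x in cfg (box L) N, wgt b c 0 N x ≠ ⊤ := by
    intro c h
    refine gc_box_ne_top hb c L (top_unique (le_trans (le_of_eq ?_) (ENNReal.le_tsum N)))
    rw [h, ENNReal.mul_top]
    exact ENNReal.inv_ne_zero.2 (ENNReal.natCast_ne_top _)
  have hint : ∀ c : ℝ, IntegrableOn (fun x : Fin N → Point =>
      Real.exp (c * N + -1 * energy (pot b) x)) (configs L N) := by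
    intro c
    refine ⟨(hm c).aestronglyMeasurable, ?_⟩
    rw [hasFiniteIntegral_iff_ofReal (Eventually.of_forall fun x => Real.exp_nonneg _), configs_eq,
      lintegral_congr_ae (hnorm c)]
    exact lt_top_iff_ne_top.2 (hfin c)
  refine ⟨by simpa using hint 0, ?_⟩
  rw [ENNReal.toReal_mul, ENNReal.toReal_inv, ENNReal.toReal_natCast, canonical,
    ← lintegral_congr_ae (hnorm μ),
    ← integral_eq_lintegral_of_nonneg_ae (Eventually.of_forall fun x => Real.exp_nonneg _)
      (hm μ).aestronglyMeasurable]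
  simp only [Real.exp_add, integral_const_mul, ← configs_eq, mul_comm μ (N:ℝ), Real.exp_nat_mul]
  ring

lemma grand_facts {b : ℕ → ℝ} (hb : Coeff b) (μ L : ℝ) :
    Summable (fun N => Real.exp μ ^ N * canonical (pot b) 1 L N) ∧
      Real.log (grand (pot b) 1 (Real.exp μ) L) = logZ b μ L := by
  have hne : ∀ N, (N ! : ℝ≥0∞)⁻¹ * ∫⁻ x in cfg (box L) N, wgt b μ 0 N x ≠ ⊤ := fun N =>
    ne_top_of_le_ne_top (gc_box_ne_top hb μ L) (ENNReal.le_tsum N)
  have e := fun N => (canonical_facts hb μ L N).2
  constructor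
  · simp only [e]; exact ENNReal.summable_toReal (gc_box_ne_top hb μ L)
  · rw [grand, tsum_congr e, ← ENNReal.tsum_toReal_eq hne]; rfl

/-- There is a stable tempered potential whose pressure has a point of nondifferentiability. -/
theorem exists_phase_transition :
    ∃ f : ℝ → ℝ, Measurable f ∧ IsLocallyBoundedOnPos f ∧ IsStable f ∧ IsTempered f ∧
      ∃ β : ℝ, 0 < β ∧
        (∀ (L : ℝ) (N : ℕ),
          IntegrableOn (fun x : Fin N → Point => Real.exp (-β * energy f x)) (configs L N)) ∧
        (∀ (z L : ℝ), 0 < z → Summable (fun N => z ^ N * canonical f β L N)) ∧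
        ∃ P : ℝ → ℝ,
          (∀ z, 0 < z → Tendsto (fun L : ℝ => (L ^ 3)⁻¹ * Real.log (grand f β z L)) atTop (𝓝 (P z))) ∧
          ∃ z₀, 0 < z₀ ∧ ¬ DifferentiableAt ℝ P z₀ := by
  obtain ⟨y, hy⟩ := exists_corner
  have hb := coeff_cf y
  set b := cf y
  refine ⟨pot b, measurable_pot hb, isLocallyBounded_pot hb, isStable_pot hb, isTempered_pot hb,
    1, one_pos, fun L N => (canonical_facts hb 0 L N).1, fun z L hz => ?_,
    fun z => pressure b (Real.log z), fun z hz => ?_, Real.exp y.2, Real.exp_pos _, fun hd => hy ?_⟩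
  · have := (grand_facts hb (Real.log z) L).1
    rwa [Real.exp_log hz] at this
  · refine (tendsto_pressure hb (Real.log z)).congr fun L => ?_
    rw [← (grand_facts hb (Real.log z) L).2, Real.exp_log hz]
  · have := hd.comp y.2 Real.differentiableAt_exp
    simpa [Function.comp_def] using this

end Vale.Agent.P171
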