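import Vale.Agent.P171.Defs

/-!
Elementary counting lemmas for pairs of points.
-/

open Finset

namespace Vale.Agent.P171

/-- Half of the sum of `F` over ordered pairs of distinct indices. -/
noncomputable def psum (F : Point → Point → ℝ) {n : ℕ} (x : Fin n → Point) : ℝ :=
  (1/2) * ∑ i, ∑ j, if i = j then 0 else F (x i) (x j)

/-- The sum of `F` over all ordered pairs of indices. -/
noncomputable def asum (F : Point → Point → ℝ) {n : ℕ} (x : Fin n → Point) : ℝ :=
  ∑ i, ∑ j, F (x i) (x j)

/-- Cube distance of integer vectors is at most `r`. -/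
def close (r : ℕ) (u v : Fin 3 → ℤ) : Prop := ∀ a, |u a - v a| ≤ (r : ℤ)

noncomputable instance (r : ℕ) (u v : Fin 3 → ℤ) : Decidable (close r u v) :=
  Classical.dec _

/-- The cube of integer vectors of radius `r`. -/
noncomputable def zball (r : ℕ) : Finset (Fin 3 → ℤ) :=
  Fintype.piFinset fun _ => Finset.Icc (-(r : ℤ)) r

lemma mem_zball {r : ℕ} {u : Fin 3 → ℤ} : u ∈ zball r ↔ ∀ a, |u a| ≤ (r : ℤ) := by
  simp [zball, abs_le, Fintype.mem_piFinset]

lemma card_zball (r : ℕ) : (zball r).card = (2 * r + 1) ^ 3 := by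
  have : ((r : ℤ) + 1 + (r : ℤ)).toNat = 2 * r + 1 := by omega
  simp [zball, Fintype.card_piFinset, this]

lemma sum_shift_le {n : ℕ} (c : Fin n → (Fin 3 → ℤ)) (d : Fin 3 → ℤ) :
    (∑ i, ∑ j, if c i = c j + d then (1:ℝ) else 0) ≤
      ∑ i, ∑ j, if c i = c j then (1:ℝ) else 0 := by
  classical
  set S := Finset.univ.image c
  let m : (Fin 3 → ℤ) → ℝ := fun v => ∑ i, if c i = v then (1:ℝ) else 0
  have hrew : ∀ e : Fin 3 → ℤ, (∑ i, ∑ j, if c i = c j + e then (1:ℝ) else 0)
      = ∑ v ∈ S, m v * m (v + e) := by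
    intro e
    rw [Finset.sum_comm, ← Finset.sum_fiberwise_of_maps_to (t := S) (g := c)
      (fun j _ => Finset.mem_image_of_mem c (Finset.mem_univ j))]
    refine Finset.sum_congr rfl fun v _ => ?_
    rw [Finset.sum_filter, Finset.sum_mul]
    refine Finset.sum_congr rfl fun j _ => ?_
    by_cases h : c j = v <;> simp [h, m]
  have h0 := hrew 0
  simp only [add_zero] at h0
  rw [hrew d, h0]
  have hsh : ∑ v ∈ S, m (v + d) * m (v + d) ≤ ∑ v ∈ S, m v * m v := by
    rw [← Finset.sum_image (f := fun v => m v * m v) (g := fun v => v + d)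
      (fun a _ b _ h => by simpa using h)]
    refine le_trans (Finset.sum_le_sum_of_subset_of_nonneg (Finset.subset_union_left (s₂ := S))
      (fun v _ _ => mul_self_nonneg _)) (le_of_eq ?_)
    refine (Finset.sum_subset Finset.subset_union_right fun v _ hv => ?_).symm
    have : m v = 0 := Finset.sum_eq_zero fun i _ => by
      rw [if_neg]; rintro rfl; exact hv (Finset.mem_image_of_mem c (Finset.mem_univ i))
    simp [this]
  have hmul : ∀ v ∈ S, m v * m (v + d) ≤ (m v * m v + m (v + d) * m (v + d)) / 2 := fun v _ => by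
    nlinarith [sq_nonneg (m v - m (v + d))]
  have := Finset.sum_le_sum hmul
  rw [← Finset.sum_div, Finset.sum_add_distrib] at this
  linarith

/-- Pairs in neighbouring cells are controlled by pairs in equal cells. -/
lemma sum_close_le {n : ℕ} (r : ℕ) (c : Fin n → (Fin 3 → ℤ)) :
    (∑ i, ∑ j, if close r (c i) (c j) then (1:ℝ) else 0) ≤
      (2 * (r:ℝ) + 1) ^ 3 * ∑ i, ∑ j, if c i = c j then (1:ℝ) else 0 := by
  classical
  have h1 : (∑ i, ∑ j, if close r (c i) (c j) then (1:ℝ) else 0)
      = ∑ d ∈ zball r, ∑ i, ∑ j, if c i = c j + d then (1:ℝ) else 0 := by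
    rw [Finset.sum_comm (s := zball r)]
    refine Finset.sum_congr rfl fun i _ => ?_
    rw [Finset.sum_comm (s := zball r)]
    refine Finset.sum_congr rfl fun j _ => ?_
    have : ∀ d : Fin 3 → ℤ, (c i = c j + d) ↔ (c i - c j = d) := fun d => by
      rw [sub_eq_iff_eq_add']
    simp only [this, Finset.sum_ite_eq, mem_zball, Pi.sub_apply]
    exact if_congr Iff.rfl rfl rfl
  rw [h1]
  refine le_trans (Finset.sum_le_sum fun d _ => sum_shift_le c d) ?_
  rw [Finset.sum_const, card_zball, nsmul_eq_mul]
  push_cast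
  rfl

lemma psum_le_psum {F G : Point → Point → ℝ} {n : ℕ} {x : Fin n → Point}
    (h : ∀ i j, i ≠ j → F (x i) (x j) ≤ G (x i) (x j)) : psum F x ≤ psum G x := by
  unfold psum
  refine mul_le_mul_of_nonneg_left (Finset.sum_le_sum fun i _ => Finset.sum_le_sum fun j _ => ?_)
    (by norm_num)
  split_ifs with hij
  · exact le_rfl
  · exact h i j hij

lemma psum_nonneg {F : Point → Point → ℝ} {n : ℕ} {x : Fin n → Point}
    (h : ∀ i j, i ≠ j → 0 ≤ F (x i) (x j)) : 0 ≤ psum F x := by
  unfold psum
  refine mul_nonneg (by norm_num) (Finset.sum_nonneg fun i _ => Finset.sum_nonneg fun j _ => ?_)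
  split_ifs with hij
  · exact le_rfl
  · exact h i j hij

lemma psum_add (F G : Point → Point → ℝ) {n : ℕ} (x : Fin n → Point) :
    psum (fun p q => F p q + G p q) x = psum F x + psum G x := by
  simp only [psum, ← mul_add, ← Finset.sum_add_distrib]
  congr 1
  refine Finset.sum_congr rfl fun i _ => Finset.sum_congr rfl fun j _ => ?_
  split_ifs <;> simp

lemma psum_const_mul (a : ℝ) (F : Point → Point → ℝ) {n : ℕ} (x : Fin n → Point) :
    psum (fun p q => a * F p q) x = a * psum F x := by
  simp only [psum, Finset.mul_sum, mul_ite, mul_zero]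
  exact Finset.sum_congr rfl fun i _ => Finset.sum_congr rfl fun j _ => by
    split_ifs <;> ring

lemma psum_neg (F : Point → Point → ℝ) {n : ℕ} (x : Fin n → Point) :
    psum (fun p q => -F p q) x = -psum F x := by
  simpa using psum_const_mul (-1) F x

lemma psum_sub (F G : Point → Point → ℝ) {n : ℕ} (x : Fin n → Point) :
    psum (fun p q => F p q - G p q) x = psum F x - psum G x := by
  simp only [sub_eq_add_neg, psum_add, psum_neg]

lemma psum_sum {α : Type} (s : Finset α) (F : α → Point → Point → ℝ) {n : ℕ}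
    (x : Fin n → Point) :
    psum (fun p q => ∑ a ∈ s, F a p q) x = ∑ a ∈ s, psum (F a) x := by
  simp only [psum, ← Finset.mul_sum]
  congr 1
  rw [Finset.sum_comm (s := s)]
  refine Finset.sum_congr rfl fun i _ => ?_
  rw [Finset.sum_comm (s := s)]
  refine Finset.sum_congr rfl fun j _ => ?_
  split_ifs <;> simp

lemma psum_hasSum {f : ℕ → Point → Point → ℝ} {g : Point → Point → ℝ} {n : ℕ}
    (x : Fin n → Point) (h : ∀ i j, HasSum (fun k => f k (x i) (x j)) (g (x i) (x j))) :
    HasSum (fun k => psum (f k) x) (psum g x) := by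
  unfold psum
  refine HasSum.mul_left _ (hasSum_sum fun i _ => hasSum_sum fun j _ => ?_)
  split_ifs
  · exact hasSum_zero
  · exact h i j

lemma psum_le_half_asum {F : Point → Point → ℝ} {n : ℕ} {x : Fin n → Point}
    (h : ∀ i, 0 ≤ F (x i) (x i)) : psum F x ≤ (1/2) * asum F x := by
  unfold psum asum
  refine mul_le_mul_of_nonneg_left (Finset.sum_le_sum fun i _ => Finset.sum_le_sum fun j _ => ?_)
    (by norm_num)
  split_ifs with hij
  · subst hij; exact h i
  · exact le_rfl

lemma psum_eq_half_asum_sub (F : Point → Point → ℝ) {n : ℕ} (x : Fin n → Point) :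
    psum F x = (1/2) * (asum F x - ∑ i, F (x i) (x i)) := by
  unfold psum asum
  rw [← Finset.sum_sub_distrib]
  congr 1
  refine Finset.sum_congr rfl fun i _ => ?_
  rw [eq_sub_iff_add_eq]
  calc (∑ j, if i = j then 0 else F (x i) (x j)) + F (x i) (x i)
      = ∑ j, ((if i = j then 0 else F (x i) (x j)) + if i = j then F (x i) (x j) else 0) := by
        rw [Finset.sum_add_distrib, Finset.sum_ite_eq, if_pos (Finset.mem_univ i)]
    _ = _ := Finset.sum_congr rfl fun j _ => by split_ifs <;> simp

lemma energy_eq_psum (φ : ℝ → ℝ) {n : ℕ} (x : Fin n → Point) :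
    energy φ x = psum (fun p q => φ (eDist p q)) x := by
  have hsym : ∀ p q, eDist p q = eDist q p := fun p q => by
    unfold eDist; congr 1; exact Finset.sum_congr rfl fun i _ => by ring
  unfold psum
  have hsplit : (∑ i, ∑ j, if i = j then 0 else φ (eDist (x i) (x j)))
      = energy φ x + ∑ i, ∑ j, if j < i then φ (eDist (x i) (x j)) else 0 := by
    rw [energy, ← Finset.sum_add_distrib]
    refine Finset.sum_congr rfl fun i _ => ?_
    rw [← Finset.sum_add_distrib]
    refine Finset.sum_congr rfl fun j _ => ?_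
    rcases lt_trichotomy i j with h | h | h
    · simp [h, h.ne, h.not_gt]
    · simp [h]
    · simp [h, h.ne', h.not_gt]
  rw [hsplit]
  have : (∑ i, ∑ j, if j < i then φ (eDist (x i) (x j)) else 0) = energy φ x := by
    rw [Finset.sum_comm]
    exact Finset.sum_congr rfl fun i _ => Finset.sum_congr rfl fun j _ => by rw [hsym]
  rw [this]; ring

end Vale.Agent.P171
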