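import Vale.Agent.P171.Pair

/-!
Grand canonical integrals of nonnegative weights and their splitting over disjoint regions.
-/

open MeasureTheory Finset
open scoped ENNReal Nat

namespace Vale.Agent.P171

/-- Weights for configurations of every number of labelled particles. -/
abbrev Weight := (n : ℕ) → (Fin n → Point) → ℝ≥0∞

/-- The configurations of `n` particles in `S`. -/
def cfg (S : Set Point) (n : ℕ) : Set (Fin n → Point) := {x | ∀ i, x i ∈ S}

lemma cfg_eq_pi (S : Set Point) (n : ℕ) : cfg S n = Set.pi Set.univ (fun _ => S) := by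
  ext x; simp [cfg]

lemma measurableSet_cfg {S : Set Point} (hS : MeasurableSet S) (n : ℕ) :
    MeasurableSet (cfg S n) := by
  rw [cfg_eq_pi]; exact MeasurableSet.univ_pi fun _ => hS

lemma volume_cfg (S : Set Point) (n : ℕ) :
    volume (cfg S n) = volume S ^ n := by
  rw [cfg_eq_pi, volume_pi_pi]; simp

/-- The grand canonical integral. -/
noncomputable def gc (S : Set Point) (w : Weight) : ℝ≥0∞ :=
  ∑' n, (n ! : ℝ≥0∞)⁻¹ * ∫⁻ x in cfg S n, w n x

/-- The points with indices in `s`, relabelled increasingly. -/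
noncomputable def sub {n : ℕ} (x : Fin n → Point) (s : Finset (Fin n)) : Fin s.card → Point :=
  fun a => x (s.orderEmbOfFin rfl a)

lemma sub_mem {n : ℕ} (x : Fin n → Point) (s : Finset (Fin n)) (a : Fin s.card) :
    ∃ i ∈ s, sub x s a = x i :=
  ⟨_, s.orderEmbOfFin_mem rfl a, rfl⟩

lemma sum_sub {n : ℕ} (x : Fin n → Point) (s : Finset (Fin n)) (f : Point → ℝ) :
    ∑ a, f (sub x s a) = ∑ i ∈ s, f (x i) := by
  conv_rhs => rw [← Finset.map_orderEmbOfFin_univ s rfl, Finset.sum_map]
  rfl

lemma asum_sub {n : ℕ} (x : Fin n → Point) (s : Finset (Fin n)) (F : Point → Point → ℝ) :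
    asum F (sub x s) = ∑ i ∈ s, ∑ j ∈ s, F (x i) (x j) := by
  unfold asum
  rw [sum_sub x s (fun p => ∑ b, F p (sub x s b))]
  exact Finset.sum_congr rfl fun i _ => sum_sub x s _

lemma psum_sub_set {n : ℕ} (x : Fin n → Point) (s : Finset (Fin n)) (F : Point → Point → ℝ) :
    psum F (sub x s) = (1/2) * ∑ i ∈ s, ∑ j ∈ s, if i = j then 0 else F (x i) (x j) := by
  unfold psum
  congr 1
  conv_rhs => rw [← Finset.map_orderEmbOfFin_univ s rfl, Finset.sum_map]
  refine Finset.sum_congr rfl fun a _ => ?_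
  rw [Finset.sum_map]
  refine Finset.sum_congr rfl fun b _ => ?_
  by_cases h : a = b
  · simp [h]
  · rw [if_neg h, if_neg]
    · rfl
    · simpa using h

/-- The indices of the points in `A`. -/
noncomputable def idx (A : Set Point) {n : ℕ} (x : Fin n → Point) : Finset (Fin n) :=
  @Finset.filter _ (fun i => x i ∈ A) (Classical.decPred _) Finset.univ

lemma mem_idx {A : Set Point} {n : ℕ} {x : Fin n → Point} {i : Fin n} :
    i ∈ idx A x ↔ x i ∈ A := by
  simp [idx]

/-- The product of two weights on complementary regions. -/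
noncomputable def join (A : Set Point) (u v : Weight) : Weight :=
  fun _ x => u _ (sub x (idx A x)) * v _ (sub x (idx A x)ᶜ)

/-- The configurations whose points in `A` have indices in `s`, the others lying in `B`. -/
def piece (A B : Set Point) {n : ℕ} (s : Finset (Fin n)) : Set (Fin n → Point) :=
  {x | (∀ i ∈ s, x i ∈ A) ∧ ∀ i ∉ s, x i ∈ B}

lemma lintegral_piece {A B : Set Point} (hA : MeasurableSet A) (hB : MeasurableSet B)
    {u v : Weight} (hu : ∀ n, Measurable (u n)) (hv : ∀ n, Measurable (v n))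
    {n : ℕ} (s : Finset (Fin n)) :
    ∫⁻ x in piece A B s, u _ (sub x s) * v _ (sub x sᶜ)
      = (∫⁻ y in cfg A s.card, u _ y) * (∫⁻ y in cfg B sᶜ.card, v _ y) := by
  classical
  let e : Fin s.card ⊕ Fin sᶜ.card ≃ Fin n := finSumEquivOfFinset (s := s) rfl rfl
  have hp : MeasurableSet (piece A B s) := by
    have : piece A B s = Set.pi Set.univ (fun i => if i ∈ s then A else B) := by
      ext x
      simp only [piece, Set.mem_ofPred_eq, Set.mem_pi, Set.mem_univ, true_implies]
      refine ⟨fun h i => ?_, fun h => ⟨fun i hi => ?_, fun i hi => ?_⟩⟩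
      · by_cases hi : i ∈ s <;> simp [hi, h.1 i, h.2 i]
      · simpa [hi] using h i
      · simpa [hi] using h i
    rw [this]
    exact MeasurableSet.univ_pi fun i => by by_cases hi : i ∈ s <;> simp [hi, hA, hB]
  rw [← lintegral_indicator hp, ← lintegral_indicator (measurableSet_cfg hA _),
    ← lintegral_indicator (measurableSet_cfg hB _)]
  rw [← lintegral_prod_mul ((hu _).indicator (measurableSet_cfg hA _)).aemeasurable
    ((hv _).indicator (measurableSet_cfg hB _)).aemeasurable]
  have hT : MeasurePreserving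
      (MeasurableEquiv.piCongrLeft (fun _ : Fin n => Point) e)
      (volume : Measure (Fin s.card ⊕ Fin sᶜ.card → Point)) volume :=
    volume_measurePreserving_piCongrLeft _ e
  have hS := volume_measurePreserving_sumPiEquivProdPi
    (fun _ : Fin s.card ⊕ Fin sᶜ.card => Point)
  rw [← hT.lintegral_comp_emb (MeasurableEquiv.measurableEmbedding _), ← Measure.volume_eq_prod,
    ← hS.lintegral_comp_emb (MeasurableEquiv.measurableEmbedding _)]
  refine lintegral_congr fun z => ?_
  set x := MeasurableEquiv.piCongrLeft (fun _ : Fin n => Point) e z with hx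
  have hxe : ∀ j, x (e j) = z j := fun j => by
    rw [hx]; exact MeasurableEquiv.piCongrLeft_apply_apply (e := e) (β := fun _ => Point) z j
  have h1 : sub x s = fun a => z (Sum.inl a) := by
    funext a; rw [← hxe (Sum.inl a)]; rfl
  have h2 : sub x sᶜ = fun a => z (Sum.inr a) := by
    funext a; rw [← hxe (Sum.inr a)]; rfl
  have hmem : x ∈ piece A B s ↔
      (fun a => z (Sum.inl a)) ∈ cfg A s.card ∧ (fun a => z (Sum.inr a)) ∈ cfg B sᶜ.card := by
    constructor
    · rintro ⟨ha, hb⟩
      refine ⟨fun a => ?_, fun a => ?_⟩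
      · rw [← h1]; obtain ⟨i, hi, h⟩ := sub_mem x s a; rw [h]; exact ha i hi
      · rw [← h2]; obtain ⟨i, hi, h⟩ := sub_mem x sᶜ a; rw [h]
        exact hb i (Finset.mem_compl.1 hi)
    · rintro ⟨ha, hb⟩
      refine ⟨fun i hi => ?_, fun i hi => ?_⟩ <;> obtain ⟨j, rfl⟩ := e.surjective i <;>
        rw [hxe] <;> cases j with
        | inl a => first | exact ha a | exact absurd (s.orderEmbOfFin_mem rfl a) hi
        | inr a => first | exact hb a | exact absurd hi (Finset.mem_compl.1 (sᶜ.orderEmbOfFin_mem rfl a))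
  show (piece A B s).indicator _ x = (cfg A s.card).indicator _ (fun a => z (Sum.inl a)) *
    (cfg B sᶜ.card).indicator _ (fun a => z (Sum.inr a))
  by_cases hm : x ∈ piece A B s
  · rw [Set.indicator_of_mem hm, Set.indicator_of_mem (hmem.1 hm).1,
      Set.indicator_of_mem (hmem.1 hm).2, h1, h2]
  · rw [Set.indicator_of_notMem hm]
    rcases not_and_or.1 (fun h => hm (hmem.2 h)) with h | h
    · rw [Set.indicator_of_notMem h, zero_mul]
    · rw [Set.indicator_of_notMem h, mul_zero]

lemma cfg_union (A B : Set Point) (n : ℕ) :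
    cfg (A ∪ B) n = ⋃ s ∈ (Finset.univ : Finset (Finset (Fin n))), piece A B s := by
  ext x
  simp only [Set.mem_iUnion, Finset.mem_univ, exists_const, cfg, piece, Set.mem_ofPred_eq,
    Set.mem_union]
  constructor
  · intro h
    refine ⟨idx A x, fun i hi => mem_idx.1 hi, fun i hi => ?_⟩
    exact (h i).resolve_left fun h' => hi (mem_idx.2 h')
  · rintro ⟨s, ha, hb⟩ i
    by_cases hi : i ∈ s
    · exact Or.inl (ha i hi)
    · exact Or.inr (hb i hi)

lemma idx_of_piece {A B : Set Point} (hd : Disjoint A B) {n : ℕ} {s : Finset (Fin n)}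
    {x : Fin n → Point} (hx : x ∈ piece A B s) : idx A x = s := by
  ext i
  rw [mem_idx]
  refine ⟨fun h => ?_, hx.1 i⟩
  by_contra hi
  exact Set.disjoint_left.1 hd h (hx.2 i hi)

lemma lintegral_join {A B : Set Point} (hA : MeasurableSet A) (hB : MeasurableSet B)
    (hd : Disjoint A B) {u v : Weight} (hu : ∀ n, Measurable (u n)) (hv : ∀ n, Measurable (v n))
    (n : ℕ) :
    ∫⁻ x in cfg (A ∪ B) n, join A u v n x
      = ∑ k ∈ Finset.range (n+1), (n.choose k : ℝ≥0∞) *
          ((∫⁻ y in cfg A k, u _ y) * (∫⁻ y in cfg B (n - k), v _ y)) := by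
  classical
  have hp : ∀ s : Finset (Fin n), MeasurableSet (piece A B s) := fun s => by
    have : piece A B s = ⋂ i, (fun x : Fin n → Point => x i) ⁻¹' (if i ∈ s then A else B) := by
      ext x
      simp only [piece, Set.mem_ofPred_eq, Set.mem_iInter, Set.mem_preimage]
      refine ⟨fun h i => ?_, fun h => ⟨fun i hi => ?_, fun i hi => ?_⟩⟩
      · by_cases hi : i ∈ s <;> simp [hi, h.1 i, h.2 i]
      · simpa [hi] using h i
      · simpa [hi] using h i
    rw [this]
    exact MeasurableSet.iInter fun i =>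
      (measurable_pi_apply i) (by by_cases hi : i ∈ s <;> simp [hi, hA, hB])
  rw [cfg_union, lintegral_biUnion_finset _ (fun s _ => hp s)]
  · have key : ∀ s : Finset (Fin n), ∫⁻ x in piece A B s, join A u v n x
        = (∫⁻ y in cfg A s.card, u _ y) * (∫⁻ y in cfg B (n - s.card), v _ y) := by
      intro s
      have hc : sᶜ.card = n - s.card := by rw [Finset.card_compl, Fintype.card_fin]
      rw [← hc, ← lintegral_piece hA hB hu hv s]
      refine setLIntegral_congr_fun (hp s) (fun x hx => ?_)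
      simp only [join]
      rw [idx_of_piece hd hx]
    rw [Finset.sum_congr rfl fun s _ => key s, ← Finset.powerset_univ,
      Finset.sum_powerset_apply_card
        (f := fun k => (∫⁻ y in cfg A k, u _ y) * (∫⁻ y in cfg B (n - k), v _ y)),
      Finset.card_univ, Fintype.card_fin]
    exact Finset.sum_congr rfl fun k _ => by rw [nsmul_eq_mul]
  · intro s _ t _ hst
    exact Set.disjoint_left.2 fun x hs ht => hst ((idx_of_piece hd hs).symm.trans (idx_of_piece hd ht))

/-- Grand canonical integrals factor over disjoint regions. -/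
theorem gc_join {A B : Set Point} (hA : MeasurableSet A) (hB : MeasurableSet B)
    (hd : Disjoint A B) {u v : Weight} (hu : ∀ n, Measurable (u n)) (hv : ∀ n, Measurable (v n)) :
    gc (A ∪ B) (join A u v) = gc A u * gc B v := by
  unfold gc
  set a : ℕ → ℝ≥0∞ := fun k => (k ! : ℝ≥0∞)⁻¹ * ∫⁻ y in cfg A k, u _ y
  set b : ℕ → ℝ≥0∞ := fun k => (k ! : ℝ≥0∞)⁻¹ * ∫⁻ y in cfg B k, v _ y
  have hn : ∀ n, (n ! : ℝ≥0∞)⁻¹ * ∫⁻ x in cfg (A ∪ B) n, join A u v n x
      = ∑ p ∈ Finset.HasAntidiagonal.antidiagonal n, a p.1 * b p.2 := by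
    intro n
    rw [lintegral_join hA hB hd hu hv, Finset.mul_sum,
      Finset.Nat.sum_antidiagonal_eq_sum_range_succ (fun i j => a i * b j)]
    refine Finset.sum_congr rfl fun k hk => ?_
    have hk' : k ≤ n := Nat.lt_succ_iff.1 (Finset.mem_range.1 hk)
    have h := Nat.choose_mul_factorial_mul_factorial hk'
    have hne : ∀ m : ℕ, (m ! : ℝ≥0∞) ≠ 0 := fun m => by exact_mod_cast m.factorial_ne_zero
    have hnt : ∀ m : ℕ, (m ! : ℝ≥0∞) ≠ ⊤ := fun m => ENNReal.natCast_ne_top _
    have : (n ! : ℝ≥0∞)⁻¹ * (n.choose k : ℝ≥0∞)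
        = (k ! : ℝ≥0∞)⁻¹ * ((n-k) ! : ℝ≥0∞)⁻¹ := by
      rw [← ENNReal.mul_inv (Or.inl (hne k)) (Or.inl (hnt k))]
      have hc : ((n.choose k : ℝ≥0∞)) * ((k ! : ℝ≥0∞) * ((n-k)! : ℝ≥0∞)) = (n ! : ℝ≥0∞) := by
        rw [← mul_assoc]; exact_mod_cast h
      refine ENNReal.eq_inv_of_mul_eq_one_left ?_
      rw [mul_assoc, hc, ENNReal.inv_mul_cancel (hne n) (hnt n)]
    simp only [a, b]
    calc _ = ((n ! : ℝ≥0∞)⁻¹ * (n.choose k : ℝ≥0∞)) *
          ((∫⁻ y in cfg A k, u _ y) * (∫⁻ y in cfg B (n - k), v _ y)) := by ring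
      _ = _ := by rw [this]; ring
  rw [tsum_congr hn]
  have hL : (∑' k, a k) * (∑' k, b k) = ∑' p : ℕ × ℕ, a p.1 * b p.2 := by
    rw [ENNReal.tsum_prod' (f := fun p : ℕ × ℕ => a p.1 * b p.2), ← ENNReal.tsum_mul_right]
    exact tsum_congr fun i => ENNReal.tsum_mul_left.symm
  rw [show (∑' n, (n ! : ℝ≥0∞)⁻¹ * ∫⁻ x in cfg A n, u n x) = ∑' k, a k from rfl,
    show (∑' n, (n ! : ℝ≥0∞)⁻¹ * ∫⁻ x in cfg B n, v n x) = ∑' k, b k from rfl, hL,
    ← Finset.HasAntidiagonal.sigmaAntidiagonalEquivProd.tsum_eq (fun p : ℕ × ℕ => a p.1 * b p.2),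
    ENNReal.tsum_sigma']
  exact tsum_congr fun n => (Finset.tsum_subtype (Finset.HasAntidiagonal.antidiagonal n)
    (fun p : ℕ × ℕ => a p.1 * b p.2)).symm

lemma gc_mono {S : Set Point} (hS : MeasurableSet S) {u v : Weight}
    (h : ∀ n x, x ∈ cfg S n → u n x ≤ v n x) : gc S u ≤ gc S v :=
  ENNReal.tsum_le_tsum fun n =>
    mul_le_mul_right (setLIntegral_mono' (measurableSet_cfg hS n) fun x hx => h n x hx) _

lemma gc_mono_set {S T : Set Point} (h : S ⊆ T) (u : Weight) : gc S u ≤ gc T u :=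
  ENNReal.tsum_le_tsum fun _ =>
    mul_le_mul_right (lintegral_mono_set fun x (hx : x ∈ cfg S _) i => h (hx i)) _

end Vale.Agent.P171
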