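import Vale.Agent.P171.Energy
import Vale.Agent.P171.Split

/-!
The pressure of the potentials `pot b`, obtained by exact superadditivity.
-/

open MeasureTheory Finset Filter
open scoped ENNReal Nat Topology

namespace Vale.Agent.P171

/-- The Boltzmann weight with chemical potential `μ` and clustering bonus `δ`. -/
noncomputable def wgt (b : ℕ → ℝ) (μ δ : ℝ) : Weight := fun n x =>
  @ite _ (Function.Injective x) (Classical.dec _)
    (ENNReal.ofReal (Real.exp (μ * n - en b x + δ * qsum x))) 0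

lemma wgt_of_inj {b : ℕ → ℝ} {μ δ : ℝ} {n : ℕ} {x : Fin n → Point} (h : Function.Injective x) :
    wgt b μ δ n x = ENNReal.ofReal (Real.exp (μ * n - en b x + δ * qsum x)) := if_pos h

lemma wgt_of_not_inj {b : ℕ → ℝ} {μ δ : ℝ} {n : ℕ} {x : Fin n → Point}
    (h : ¬ Function.Injective x) : wgt b μ δ n x = 0 := if_neg h

lemma measurableSet_injective (n : ℕ) :
    MeasurableSet {x : Fin n → Point | Function.Injective x} := by
  have : {x : Fin n → Point | Function.Injective x}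
      = ⋂ i, ⋂ j, {x | x i = x j → i = j} := by
    ext x; simp [Function.Injective]
  rw [this]
  refine MeasurableSet.iInter fun i => MeasurableSet.iInter fun j => ?_
  by_cases h : i = j
  · simp [h]
  · simp only [h, imp_false]
    exact (measurableSet_eq_fun (measurable_pi_apply i) (measurable_pi_apply j)).compl

lemma measurable_cell : Measurable cell :=
  measurable_pi_lambda _ fun a => Int.measurable_floor.comp (measurable_pi_apply a)

lemma measurable_qsum (n : ℕ) : Measurable (fun x : Fin n → Point => qsum x) := by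
  unfold qsum asum sameCell
  refine Finset.measurable_sum _ fun i _ => Finset.measurable_sum _ fun j _ => ?_
  exact Measurable.ite (measurableSet_eq_fun (measurable_cell.comp (measurable_pi_apply i))
    (measurable_cell.comp (measurable_pi_apply j))) measurable_const measurable_const

lemma measurable_wgt {b : ℕ → ℝ} (hb : Coeff b) (μ δ : ℝ) (n : ℕ) :
    Measurable (wgt b μ δ n) := by
  refine Measurable.ite (measurableSet_injective n) ?_ measurable_const
  exact ((((measurable_const).sub (measurable_en hb n)).add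
    ((measurable_qsum n).const_mul δ)).exp).ennreal_ofReal

lemma measurableSet_box (L : ℝ) : MeasurableSet (box L) := by
  have : box L = ⋂ a, (fun p : Point => p a) ⁻¹' Set.Icc 0 L := by ext; simp [box]
  rw [this]
  exact MeasurableSet.iInter fun a => (measurable_pi_apply a) measurableSet_Icc

lemma box_mono {L L' : ℝ} (h : L ≤ L') : box L ⊆ box L' :=
  fun _ hp a => ⟨(hp a).1, (hp a).2.trans h⟩

lemma volume_box (L : ℝ) : volume (box L) = ENNReal.ofReal L ^ 3 := by
  have : box L = Set.pi Set.univ (fun _ : Fin 3 => Set.Icc 0 L) := by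
    ext; simp [box, Pi.le_def, forall_and]
  rw [this, volume_pi_pi]
  simp [Real.volume_Icc]

lemma tsum_pow_div_factorial_ofReal {v : ℝ} (hv : 0 ≤ v) :
    ∑' n : ℕ, (n ! : ℝ≥0∞)⁻¹ * ENNReal.ofReal v ^ n = ENNReal.ofReal (Real.exp v) := by
  have h : HasSum (fun n => v ^ n / n !) (Real.exp v) := by
    rw [Real.exp_eq_exp_ℝ]; exact NormedSpace.expSeries_div_hasSum_exp v
  rw [← h.tsum_eq, ENNReal.ofReal_tsum_of_nonneg (fun n => by positivity) h.summable]
  refine tsum_congr fun n => ?_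
  rw [ENNReal.ofReal_div_of_pos (by positivity), ENNReal.ofReal_pow hv, ENNReal.ofReal_natCast,
    ENNReal.div_eq_inv_mul]

/-- A uniform a priori bound for the grand canonical integrals. -/
theorem gc_wgt_bound (M : ℝ) : ∃ B : ℝ, ∀ b : ℕ → ℝ, Coeff b → (∑' k, b k) ≤ M →
    ∀ μ δ : ℝ, δ ≤ 1 → ∀ L : ℕ, gc (box L) (wgt b μ δ) ≤
      ENNReal.ofReal (Real.exp (((L:ℝ) + 1) ^ 3 * (1 + 2 * (μ + B) ^ 2))) := by
  obtain ⟨B, _, hB⟩ := en_lower 2 M
  refine ⟨B, fun b hb hM μ δ hδ L => ?_⟩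
  set V : ℝ := ((L:ℝ) + 1) ^ 3 with hV
  have hVpos : 0 < V := by positivity
  have hw : ∀ n x, x ∈ cfg (box L) n →
      wgt b μ δ n x ≤ ENNReal.ofReal (Real.exp (2 * V * (μ + B) ^ 2)) := by
    intro n x hx
    by_cases hinj : Function.Injective x
    · rw [wgt_of_inj hinj]
      refine ENNReal.ofReal_le_ofReal (Real.exp_le_exp.2 ?_)
      have h1 := hB b hb hM n x hinj
      have h2 := qsum_nonneg x
      have h3 : δ * qsum x ≤ qsum x := mul_le_of_le_one_left h2 hδ
      have h4 := sq_card_le_qsum L x hx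
      rw [← hV] at h4
      have h5 : (μ + B) * n - qsum x ≤ 2 * V * (μ + B) ^ 2 := by
        have : (μ + B) * n * (8 * V) - 8 * V * qsum x ≤ 2 * V * (μ + B) ^ 2 * (8 * V) := by
          nlinarith [sq_nonneg ((n:ℝ) - 4 * V * (μ + B))]
        nlinarith
      linarith
    · rw [wgt_of_not_inj hinj]; exact zero_le
  refine le_trans (gc_mono (measurableSet_box _) hw) ?_
  unfold gc
  simp only [setLIntegral_const, volume_cfg, volume_box]
  rw [← ENNReal.ofReal_pow (Nat.cast_nonneg L), tsum_congr (fun n => mul_left_comm _ _ _),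
    ENNReal.tsum_mul_left, tsum_pow_div_factorial_ofReal (by positivity),
    ← ENNReal.ofReal_mul (Real.exp_nonneg _), ← Real.exp_add]
  refine ENNReal.ofReal_le_ofReal (Real.exp_le_exp.2 ?_)
  have : (L:ℝ) ^ 3 ≤ V := pow_le_pow_left₀ (Nat.cast_nonneg L) (by linarith) 3
  nlinarith

lemma one_le_gc_wgt (b : ℕ → ℝ) (μ δ : ℝ) (S : Set Point) : 1 ≤ gc S (wgt b μ δ) := by
  refine le_trans (le_of_eq ?_) (ENNReal.le_tsum 0)
  have h : ∀ x : Fin 0 → Point, wgt b μ δ 0 x = 1 := fun x => by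
    rw [wgt_of_inj (fun a => a.elim0)]
    simp [en, psum, qsum, asum]
  rw [lintegral_congr h, setLIntegral_const, volume_cfg]
  simp

/-- The logarithm of the grand canonical partition function. -/
noncomputable def logZ (b : ℕ → ℝ) (μ L : ℝ) : ℝ := Real.log (gc (box L) (wgt b μ 0)).toReal

/-- The pressure. -/
noncomputable def pressure (b : ℕ → ℝ) (μ : ℝ) : ℝ :=
  ⨆ L : ℕ, logZ b μ L / ((L:ℝ) + 1) ^ 3

lemma gc_box_ne_top {b : ℕ → ℝ} (hb : Coeff b) (μ L : ℝ) :
    gc (box L) (wgt b μ 0) ≠ ⊤ := by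
  obtain ⟨B, hB⟩ := gc_wgt_bound (∑' k, b k)
  refine ne_top_of_le_ne_top ENNReal.ofReal_ne_top (le_trans (gc_mono_set (box_mono (Nat.le_ceil L)) _)
    (hB b hb le_rfl μ 0 zero_le_one ⌈L⌉₊))

lemma logZ_nonneg {b : ℕ → ℝ} (hb : Coeff b) (μ L : ℝ) : 0 ≤ logZ b μ L := by
  refine Real.log_nonneg ?_
  rw [← ENNReal.toReal_one]
  exact ENNReal.toReal_mono (gc_box_ne_top hb μ L) (one_le_gc_wgt _ _ _ _)

lemma gc_eq_exp_logZ {b : ℕ → ℝ} (hb : Coeff b) (μ L : ℝ) :
    gc (box L) (wgt b μ 0) = ENNReal.ofReal (Real.exp (logZ b μ L)) := by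
  have h1 : (1:ℝ) ≤ (gc (box L) (wgt b μ 0)).toReal := by
    rw [← ENNReal.toReal_one]
    exact ENNReal.toReal_mono (gc_box_ne_top hb μ L) (one_le_gc_wgt _ _ _ _)
  rw [logZ, Real.exp_log (by linarith), ENNReal.ofReal_toReal (gc_box_ne_top hb μ L)]

lemma logZ_le_iff {b : ℕ → ℝ} (hb : Coeff b) (μ L c : ℝ) :
    logZ b μ L ≤ c ↔ gc (box L) (wgt b μ 0) ≤ ENNReal.ofReal (Real.exp c) := by
  rw [gc_eq_exp_logZ hb, ENNReal.ofReal_le_ofReal_iff (Real.exp_nonneg _), Real.exp_le_exp]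

lemma pressure_bdd {b : ℕ → ℝ} (hb : Coeff b) (μ : ℝ) :
    BddAbove (Set.range fun L : ℕ => logZ b μ L / ((L:ℝ) + 1) ^ 3) := by
  obtain ⟨B, hB⟩ := gc_wgt_bound (∑' k, b k)
  refine ⟨1 + 2 * (μ + B) ^ 2, ?_⟩
  rintro _ ⟨L, rfl⟩
  show _ / _ ≤ _
  rw [div_le_iff₀ (by positivity), logZ_le_iff hb, mul_comm]
  exact hB b hb le_rfl μ 0 zero_le_one L

lemma pressure_le_iff {b : ℕ → ℝ} (hb : Coeff b) (μ c : ℝ) :
    pressure b μ ≤ c ↔ ∀ L : ℕ, gc (box L) (wgt b μ 0) ≤
      ENNReal.ofReal (Real.exp (((L:ℝ) + 1) ^ 3 * c)) := by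
  rw [pressure, ciSup_le_iff (pressure_bdd hb μ)]
  refine forall_congr' fun L => ?_
  rw [← logZ_le_iff hb, div_le_iff₀ (by positivity), mul_comm c]

lemma pressure_nonneg {b : ℕ → ℝ} (hb : Coeff b) (μ : ℝ) : 0 ≤ pressure b μ := by
  have h := le_ciSup (pressure_bdd hb μ) 0
  exact le_trans (div_nonneg (logZ_nonneg hb μ _) (by positivity)) h

lemma logZ_le_pressure {b : ℕ → ℝ} (hb : Coeff b) (μ : ℝ) (L : ℕ) :
    logZ b μ L ≤ ((L:ℝ) + 1) ^ 3 * pressure b μ := by
  rw [logZ_le_iff hb]; exact (pressure_le_iff hb μ _).1 le_rfl L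

lemma gc_le_pressure {b : ℕ → ℝ} (hb : Coeff b) (μ : ℝ) (L : ℕ) :
    gc (box L) (wgt b μ 0) ≤ ENNReal.ofReal (Real.exp (((L:ℝ) + 1) ^ 3 * pressure b μ)) :=
  (pressure_le_iff hb μ _).1 le_rfl L

lemma pressure_quadratic {b : ℕ → ℝ} (hb : Coeff b) :
    ∃ B : ℝ, ∀ μ : ℝ, pressure b μ ≤ 1 + 2 * (μ + B) ^ 2 := by
  obtain ⟨B, hB⟩ := gc_wgt_bound (∑' k, b k)
  exact ⟨B, fun μ => (pressure_le_iff hb μ _).2 fun L => hB b hb le_rfl μ 0 zero_le_one L⟩

lemma psum_split {n : ℕ} (x : Fin n → Point) (s : Finset (Fin n)) (F : Point → Point → ℝ)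
    (h1 : ∀ i ∈ s, ∀ j ∈ sᶜ, F (x i) (x j) ≤ 0) (h2 : ∀ i ∈ sᶜ, ∀ j ∈ s, F (x i) (x j) ≤ 0) :
    psum F x ≤ psum F (sub x s) + psum F (sub x sᶜ) := by
  rw [psum_sub_set, psum_sub_set, psum, ← mul_add]
  refine mul_le_mul_of_nonneg_left ?_ (by norm_num)
  rw [← Finset.sum_add_sum_compl s]
  refine add_le_add (Finset.sum_le_sum fun i hi => ?_) (Finset.sum_le_sum fun i hi => ?_)
  · rw [← Finset.sum_add_sum_compl s]
    refine add_le_of_nonpos_right (Finset.sum_nonpos fun j hj => ?_)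
    split_ifs
    · exact le_rfl
    · exact h1 i hi j hj
  · rw [← Finset.sum_add_sum_compl s]
    refine add_le_of_nonpos_left (Finset.sum_nonpos fun j hj => ?_)
    split_ifs
    · exact le_rfl
    · exact h2 i hi j hj

lemma injective_of_sub {A : Set Point} {n : ℕ} {x : Fin n → Point}
    (h1 : Function.Injective (sub x (idx A x))) (h2 : Function.Injective (sub x (idx A x)ᶜ)) :
    Function.Injective x := by
  intro i j hij
  have key : ∀ s : Finset (Fin n), Function.Injective (sub x s) → i ∈ s → j ∈ s → i = j := by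
    intro s hs hi hj
    have hi' : i ∈ Set.range (s.orderEmbOfFin rfl) := by rw [Finset.range_orderEmbOfFin]; exact hi
    have hj' : j ∈ Set.range (s.orderEmbOfFin rfl) := by rw [Finset.range_orderEmbOfFin]; exact hj
    obtain ⟨a, rfl⟩ := hi'
    obtain ⟨c, rfl⟩ := hj'
    rw [hs (a₁ := a) (a₂ := c) hij]
  by_cases hi : i ∈ idx A x
  · exact key _ h1 hi (mem_idx.2 (hij ▸ mem_idx.1 hi))
  · refine key _ h2 (Finset.mem_compl.2 hi) (Finset.mem_compl.2 ?_)
    exact fun hj => hi (mem_idx.2 (hij ▸ mem_idx.1 hj))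

lemma card_add_card_compl {n : ℕ} (s : Finset (Fin n)) :
    (n:ℝ) = (s.card:ℝ) + (sᶜ.card:ℝ) := by
  have := Finset.card_add_card_compl s
  rw [Fintype.card_fin] at this
  exact_mod_cast this.symm

lemma gc_mul_le_of_separated {b : ℕ → ℝ} (hb : Coeff b) (μ : ℝ) {A B : Set Point}
    (hA : MeasurableSet A) (hB : MeasurableSet B) (hsep : ∀ p ∈ A, ∀ q ∈ B, 1 ≤ eDist p q) :
    gc A (wgt b μ 0) * gc B (wgt b μ 0) ≤ gc (A ∪ B) (wgt b μ 0) := by
  have hd : Disjoint A B := Set.disjoint_left.2 fun p hp hp' => by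
    have := hsep p hp p hp'
    simp [eDist] at this
    linarith
  rw [← gc_join hA hB hd (measurable_wgt hb μ 0) (measurable_wgt hb μ 0)]
  refine gc_mono (hA.union hB) fun n x hx => ?_
  unfold join
  by_cases h1 : Function.Injective (sub x (idx A x))
  swap; · rw [wgt_of_not_inj h1, zero_mul]; exact zero_le
  by_cases h2 : Function.Injective (sub x (idx A x)ᶜ)
  swap; · rw [wgt_of_not_inj h2, mul_zero]; exact zero_le
  rw [wgt_of_inj h1, wgt_of_inj h2, wgt_of_inj (injective_of_sub h1 h2),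
    ← ENNReal.ofReal_mul (Real.exp_nonneg _), ← Real.exp_add]
  refine ENNReal.ofReal_le_ofReal (Real.exp_le_exp.2 ?_)
  have hcross : ∀ p ∈ A, ∀ q ∈ B, pot b (eDist p q) ≤ 0 := fun p hp q hq => by
    rw [pot, core_of_one_le (hsep p hp q hq)]
    linarith [psi_nonneg hb (eDist p q)]
  have hmemB : ∀ i ∈ (idx A x)ᶜ, x i ∈ B := fun i hi =>
    (hx i).resolve_left fun h => (Finset.mem_compl.1 hi) (mem_idx.2 h)
  have hsym : ∀ p q, eDist p q = eDist q p := fun p q => by
    unfold eDist; congr 1; exact Finset.sum_congr rfl fun i _ => by ring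
  have hen : en b x ≤ en b (sub x (idx A x)) + en b (sub x (idx A x)ᶜ) :=
    psum_split x _ _ (fun i hi j hj => hcross _ (mem_idx.1 hi) _ (hmemB j hj))
      (fun i hi j hj => by rw [hsym]; exact hcross _ (mem_idx.1 hj) _ (hmemB i hi))
  simp only [zero_mul, add_zero]
  rw [card_add_card_compl (idx A x), mul_add]
  linarith

/-- Invariance of grand canonical integrals under translations. -/
lemma gc_translate {w : Weight} (v : Point) (hw : ∀ n x, w n (fun i => x i + v) = w n x)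
    {S : Set Point} (hS : MeasurableSet S) : gc {p | p - v ∈ S} w = gc S w := by
  unfold gc
  refine tsum_congr fun n => ?_
  congr 1
  have hm : MeasurableSet {p : Point | p - v ∈ S} := (measurable_id.sub_const v) hS
  rw [← lintegral_indicator (measurableSet_cfg hS n), ← lintegral_indicator (measurableSet_cfg hm n),
    ← lintegral_add_right_eq_self ((cfg {p | p - v ∈ S} n).indicator (w n))
      (fun _ : Fin n => v)]
  refine lintegral_congr fun x => ?_
  by_cases h : x ∈ cfg S n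
  · have h' : x + (fun _ => v) ∈ cfg {p | p - v ∈ S} n := fun i => by simpa using h i
    rw [Set.indicator_of_mem h, Set.indicator_of_mem h']
    exact hw n x
  · have h' : x + (fun _ => v) ∉ cfg {p | p - v ∈ S} n := fun h' => h fun i => by
      simpa using h' i
    rw [Set.indicator_of_notMem h, Set.indicator_of_notMem h']

lemma cell_add_int (v : Fin 3 → ℤ) (p : Point) :
    cell (p + fun a => (v a : ℝ)) = cell p + v := by
  funext a; simp [cell]

lemma wgt_translate (b : ℕ → ℝ) (μ δ : ℝ) (v : Fin 3 → ℤ) (n : ℕ) (x : Fin n → Point) :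
    wgt b μ δ n (fun i => x i + fun a => (v a : ℝ)) = wgt b μ δ n x := by
  have he : en b (fun i => x i + fun a => (v a : ℝ)) = en b x := by
    simp [en, psum, eDist]
  have hq : qsum (fun i => x i + fun a => (v a : ℝ)) = qsum x := by
    simp [qsum, asum, sameCell, cell_add_int]
  have hi : Function.Injective (fun i => x i + fun a => (v a : ℝ)) ↔ Function.Injective x :=
    ⟨fun h i j hij => h (by simp [hij]), fun h i j hij => h (add_right_cancel hij)⟩
  by_cases h : Function.Injective x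
  · rw [wgt_of_inj h, wgt_of_inj (hi.2 h), he, hq]
  · rw [wgt_of_not_inj h, wgt_of_not_inj (fun h' => h (hi.1 h'))]

/-- The translated cube `v + [0,L]^3`. -/
def cube (L : ℝ) (v : Fin 3 → ℤ) : Set Point := {p | p - (fun a => (v a : ℝ)) ∈ box L}

lemma measurableSet_cube (L : ℝ) (v : Fin 3 → ℤ) : MeasurableSet (cube L v) :=
  (measurable_id.sub_const _) (measurableSet_box L)

lemma gc_cube (b : ℕ → ℝ) (μ δ : ℝ) (L : ℝ) (v : Fin 3 → ℤ) :
    gc (cube L v) (wgt b μ δ) = gc (box L) (wgt b μ δ) :=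
  gc_translate _ (wgt_translate b μ δ v) (measurableSet_box L)

lemma pow_le_gc_blocks {b : ℕ → ℝ} (hb : Coeff b) (μ : ℝ) (m L : ℕ) :
    gc (box L) (wgt b μ 0) ^ (m ^ 3) ≤ gc (box ((m:ℝ) * ((L:ℝ) + 1))) (wgt b μ 0) := by
  classical
  let T : (Fin 3 → ℕ) → Set Point := fun v => cube L (fun a => (v a : ℤ) * ((L:ℤ) + 1))
  have main : ∀ S : Finset (Fin 3 → ℕ),
      gc (box L) (wgt b μ 0) ^ S.card ≤ gc (⋃ v ∈ S, T v) (wgt b μ 0) := by
    intro S
    induction S using Finset.induction_on with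
    | empty => simp only [Finset.card_empty, pow_zero]; exact one_le_gc_wgt _ _ _ _
    | @insert v S hv ih =>
      rw [Finset.card_insert_of_notMem hv, pow_succ', Finset.set_biUnion_insert]
      refine le_trans (mul_le_mul' (le_of_eq (gc_cube b μ 0 L (fun a => (v a : ℤ) * ((L:ℤ) + 1))).symm) ih) ?_
      refine gc_mul_le_of_separated hb μ (measurableSet_cube _ _)
        (Finset.measurableSet_biUnion _ fun u _ => measurableSet_cube _ _) fun p hp q hq => ?_
      simp only [Set.mem_iUnion] at hq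
      obtain ⟨u, hu, hq⟩ := hq
      obtain ⟨a, ha⟩ : ∃ a, v a ≠ u a := by
        by_contra h; push Not at h; exact hv ((funext h : v = u) ▸ hu)
      refine le_trans ?_ (abs_coord_le_eDist p q a)
      have hp' : p a - ((v a:ℝ) * ((L:ℝ) + 1)) ∈ Set.Icc (0:ℝ) L := by
        simpa [T, cube, box] using hp a
      have hq' : q a - ((u a:ℝ) * ((L:ℝ) + 1)) ∈ Set.Icc (0:ℝ) L := by
        simpa [T, cube, box] using hq a
      obtain ⟨hp1, hp2⟩ := hp'
      obtain ⟨hq1, hq2⟩ := hq'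
      rcases lt_or_gt_of_ne ha with h | h
      · have : (v a:ℝ) + 1 ≤ u a := by exact_mod_cast h
        rw [abs_sub_comm]
        refine le_trans ?_ (le_abs_self _)
        nlinarith
      · have : (u a:ℝ) + 1 ≤ v a := by exact_mod_cast h
        refine le_trans ?_ (le_abs_self _)
        nlinarith
  refine le_trans (le_of_eq ?_) (le_trans (main (Fintype.piFinset fun _ => Finset.range m))
    (gc_mono_set ?_ _))
  · simp [Fintype.card_piFinset]
  · intro p hp
    simp only [Set.mem_iUnion, Fintype.mem_piFinset, Finset.mem_range] at hp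
    obtain ⟨v, hv, hp⟩ := hp
    intro a
    have hp' : p a - ((v a:ℝ) * ((L:ℝ) + 1)) ∈ Set.Icc (0:ℝ) L := by
      simpa [T, cube, box] using hp a
    obtain ⟨h1, h2⟩ := hp'
    have : (v a:ℝ) + 1 ≤ m := by exact_mod_cast hv a
    have h0 : (0:ℝ) ≤ v a := Nat.cast_nonneg _
    exact ⟨by nlinarith, by nlinarith⟩

/-- The thermodynamic limit. -/
theorem tendsto_pressure {b : ℕ → ℝ} (hb : Coeff b) (μ : ℝ) :
    Tendsto (fun L : ℝ => (L ^ 3)⁻¹ * logZ b μ L) atTop (𝓝 (pressure b μ)) := by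
  rw [tendsto_order]
  constructor
  · intro a ha
    obtain ⟨L, hL⟩ := exists_lt_of_lt_ciSup ha
    have hc : (0:ℝ) < (L:ℝ) + 1 := by positivity
    have hlim : Tendsto (fun L' : ℝ => ((⌊(1 / ((L:ℝ) + 1)) * L'⌋₊ : ℝ) / L') ^ 3 * logZ b μ L) atTop
        (𝓝 ((1 / ((L:ℝ) + 1)) ^ 3 * logZ b μ L)) :=
      ((tendsto_nat_floor_mul_div_atTop (by positivity)).pow 3).mul_const _
    have hlt : a < (1 / ((L:ℝ) + 1)) ^ 3 * logZ b μ L := by
      rw [div_pow, one_pow, one_div_mul_eq_div]; exact hL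
    filter_upwards [hlim.eventually (lt_mem_nhds hlt), eventually_gt_atTop 0] with L' h hL'
    refine lt_of_lt_of_le h ?_
    set m := ⌊(1 / ((L:ℝ) + 1)) * L'⌋₊
    have hm : (m:ℝ) * ((L:ℝ) + 1) ≤ L' := by
      have := Nat.floor_le (show (0:ℝ) ≤ (1 / ((L:ℝ) + 1)) * L' by positivity)
      calc (m:ℝ) * ((L:ℝ) + 1) ≤ (1 / ((L:ℝ) + 1)) * L' * ((L:ℝ) + 1) :=
            mul_le_mul_of_nonneg_right this hc.le
        _ = L' := by field_simp
    have h2 : (m:ℝ) ^ 3 * logZ b μ L ≤ logZ b μ L' := by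
      have := le_trans (pow_le_gc_blocks hb μ m L) (gc_mono_set (box_mono hm) _)
      rw [gc_eq_exp_logZ hb, gc_eq_exp_logZ hb, ← ENNReal.ofReal_pow (Real.exp_nonneg _),
        ← Real.exp_nat_mul, ENNReal.ofReal_le_ofReal_iff (Real.exp_nonneg _), Real.exp_le_exp] at this
      push_cast at this
      exact this
    rw [div_pow, div_mul_eq_mul_div, div_eq_inv_mul]
    exact mul_le_mul_of_nonneg_left h2 (by positivity)
  · intro a ha
    have hlim : Tendsto (fun L' : ℝ => ((⌈L'⌉₊ : ℝ) / L' + 1 / L') ^ 3 * pressure b μ) atTop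
        (𝓝 (((1:ℝ) + 0) ^ 3 * pressure b μ)) := by
      refine (((tendsto_nat_ceil_div_atTop (R := ℝ)).add ?_).pow 3).mul_const _
      exact (tendsto_inv_atTop_zero (𝕜 := ℝ)).congr fun r => (one_div r).symm
    simp only [add_zero, one_pow, one_mul] at hlim
    filter_upwards [hlim.eventually (gt_mem_nhds ha), eventually_gt_atTop 0] with L' h hL'
    refine lt_of_le_of_lt ?_ h
    have h2 : logZ b μ L' ≤ ((⌈L'⌉₊:ℝ) + 1) ^ 3 * pressure b μ := by
      rw [logZ_le_iff hb]
      exact le_trans (gc_mono_set (box_mono (Nat.le_ceil L')) _) (gc_le_pressure hb μ _)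
    rw [← add_div, div_pow, div_mul_eq_mul_div, div_eq_inv_mul]
    exact mul_le_mul_of_nonneg_left h2 (by positivity)

end Vale.Agent.P171
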