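import Vale.Agent.P171.Pressure

/-!
A lower bound for the pressure from jittered lattice configurations.
-/

open MeasureTheory Finset Filter
open scoped ENNReal Nat Topology

namespace Vale.Agent.P171

/-- The radius of the lattice neighbourhood seen by the kernel `k`. -/
def rad (k : ℕ) : ℕ := (k + 1) / 2 - 1

/-- The attraction per site of the lattice configuration in the kernel `k`. -/
noncomputable def tcoef (k : ℕ) : ℝ :=
  ((2 * (rad k : ℝ) + 1) ^ 3 - 1) / (2 * ((k:ℝ) + 1) ^ 3)

/-- The energy and entropy cost per site of the lattice configuration. -/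
noncomputable def cost : ℝ := 216 + Real.log 8

lemma tcoef_nonneg (k : ℕ) : 0 ≤ tcoef k := by
  refine div_nonneg (sub_nonneg.2 (one_le_pow₀ ?_)) (by positivity)
  linarith [((rad k).cast_nonneg : (0:ℝ) ≤ rad k)]

lemma rad_le (k : ℕ) : 2 * rad k ≤ k + 1 := by unfold rad; omega

lemma tcoef_le (k : ℕ) : tcoef k ≤ 4 := by
  have hk : (2 * (rad k : ℝ)) ≤ (k:ℝ) + 1 := by exact_mod_cast rad_le k
  have hk1 : (1:ℝ) ≤ (k:ℝ) + 1 := by linarith [(k.cast_nonneg : (0:ℝ) ≤ k)]
  unfold tcoef
  rw [div_le_iff₀ (by positivity)]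
  have : (2 * (rad k : ℝ) + 1) ^ 3 ≤ (2 * ((k:ℝ) + 1)) ^ 3 :=
    pow_le_pow_left₀ (by positivity) (by linarith) 3
  nlinarith

lemma one_div_32_le_tcoef (k : ℕ) (hk : 3 ≤ k) : (1:ℝ) / 32 ≤ tcoef k := by
  have h : k + 1 ≤ 2 * (2 * rad k + 1) := by unfold rad; omega
  have h' : ((k:ℝ) + 1) / 2 ≤ 2 * (rad k : ℝ) + 1 := by
    have : ((k:ℝ) + 1) ≤ 2 * (2 * (rad k:ℝ) + 1) := by exact_mod_cast h
    linarith
  have hk4 : (4:ℝ) ≤ (k:ℝ) + 1 := by exact_mod_cast Nat.succ_le_succ hk
  have h3 := pow_le_pow_left₀ (by positivity) h' 3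
  have h4 := pow_le_pow_left₀ (by norm_num : (0:ℝ) ≤ 4) hk4 3
  unfold tcoef
  rw [le_div_iff₀ (by positivity)]
  nlinarith

/-- The middle part of a unit cell. -/
def middle (v : Fin 3 → ℤ) : Set Point :=
  {p | ∀ a, p a ∈ Set.Icc ((v a : ℝ) + 1/4) ((v a : ℝ) + 3/4)}

lemma middle_eq_pi (v : Fin 3 → ℤ) :
    middle v = Set.pi Set.univ (fun a => Set.Icc ((v a : ℝ) + 1/4) ((v a : ℝ) + 3/4)) := by
  ext; simp [middle, Pi.le_def, forall_and]

lemma measurableSet_middle (v : Fin 3 → ℤ) : MeasurableSet (middle v) := by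
  rw [middle_eq_pi]; exact MeasurableSet.univ_pi fun _ => measurableSet_Icc

lemma volume_middle (v : Fin 3 → ℤ) : volume (middle v) = ENNReal.ofReal (1/8) := by
  rw [middle_eq_pi, volume_pi_pi]
  simp only [Real.volume_Icc]
  rw [← ENNReal.ofReal_prod_of_nonneg (fun _ _ => by norm_num)]
  congr 1
  rw [Fin.prod_univ_three]; ring

lemma cell_of_middle {v : Fin 3 → ℤ} {p : Point} (h : p ∈ middle v) : cell p = v := by
  funext a
  obtain ⟨h1, h2⟩ := h a
  show ⌊p a⌋ = v a
  rw [Int.floor_eq_iff]; constructor <;> linarith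

/-- The number of points in `T`. -/
noncomputable def cnt (T : Set Point) {n : ℕ} (x : Fin n → Point) : ℝ :=
  ∑ i, T.indicator (fun _ => (1:ℝ)) (x i)

lemma measurable_cnt {T : Set Point} (hT : MeasurableSet T) (n : ℕ) :
    Measurable (fun x : Fin n → Point => cnt T x) := by
  unfold cnt
  refine Finset.measurable_sum _ fun i _ => ?_
  exact Measurable.comp (g := T.indicator (fun _ => (1:ℝ))) (measurable_const.indicator hT)
    (measurable_pi_apply i)

/-- The event of one point in each middle part. -/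
noncomputable def oneW (S : Finset (Fin 3 → ℤ)) : Weight := fun n x =>
  @ite _ (∀ v ∈ S, cnt (middle v) x = 1) (Classical.dec _) 1 0

lemma measurable_oneW (S : Finset (Fin 3 → ℤ)) (n : ℕ) : Measurable (oneW S n) := by
  refine Measurable.ite ?_ measurable_const measurable_const
  have : {x : Fin n → Point | ∀ v ∈ S, cnt (middle v) x = 1}
      = ⋂ v ∈ S, (fun x : Fin n → Point => cnt (middle v) x) ⁻¹' {1} := by ext; simp
  rw [this]
  exact Finset.measurableSet_biInter _ fun v _ =>
    measurable_cnt (measurableSet_middle v) n (measurableSet_singleton 1)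

lemma middle_disjoint {v w : Fin 3 → ℤ} (h : v ≠ w) : Disjoint (middle v) (middle w) :=
  Set.disjoint_left.2 fun _ hv hw => h ((cell_of_middle hv).symm.trans (cell_of_middle hw))

lemma pow_le_gc_oneW (S : Finset (Fin 3 → ℤ)) :
    ENNReal.ofReal (1/8) ^ S.card ≤ gc (⋃ v ∈ S, middle v) (oneW S) := by
  classical
  induction S using Finset.induction_on with
  | empty =>
    refine le_trans ?_ (ENNReal.le_tsum 0)
    rw [lintegral_congr (g := fun _ => 1) (fun x => by simp [oneW]), setLIntegral_const, volume_cfg]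
    simp
  | @insert v S hv ih =>
    rw [Finset.card_insert_of_notMem hv, pow_succ', Finset.set_biUnion_insert]
    have hB : MeasurableSet (⋃ u ∈ S, middle u) :=
      Finset.measurableSet_biUnion _ fun u _ => measurableSet_middle u
    have hd : Disjoint (middle v) (⋃ u ∈ S, middle u) := by
      simp only [Set.disjoint_iUnion_right]
      exact fun u hu => middle_disjoint fun h => hv (h ▸ hu)
    have h1 : ENNReal.ofReal (1/8) ≤ gc (middle v) (oneW {v}) := by
      refine le_trans ?_ (ENNReal.le_tsum 1)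
      have : ∀ x ∈ cfg (middle v) 1, oneW {v} 1 x = 1 := fun x hx => by
        simp [oneW, cnt, hx 0]
      rw [setLIntegral_congr_fun (measurableSet_cfg (measurableSet_middle v) 1) this,
        setLIntegral_const, volume_cfg, volume_middle]
      simp
    refine le_trans (mul_le_mul' h1 ih) ?_
    rw [← gc_join (measurableSet_middle v) hB hd (measurable_oneW _) (measurable_oneW _)]
    refine gc_mono ((measurableSet_middle v).union hB) fun n x hx => ?_
    by_cases h : (∀ u ∈ ({v} : Finset _), cnt (middle u) (sub x (idx (middle v) x)) = 1) ∧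
        ∀ u ∈ S, cnt (middle u) (sub x (idx (middle v) x)ᶜ) = 1
    · have hc : ∀ u ∈ insert v S, cnt (middle u) x = 1 := by
        intro u hu
        rcases Finset.mem_insert.1 hu with rfl | hu
        · have := h.1 u (Finset.mem_singleton_self u)
          rw [cnt, sum_sub] at this
          rw [cnt, ← Finset.sum_add_sum_compl (idx (middle u) x), this]
          rw [add_eq_left]
          exact Finset.sum_eq_zero fun i hi => Set.indicator_of_notMem
            (fun hm => Finset.mem_compl.1 hi (mem_idx.2 hm)) _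
        · have := h.2 u hu
          rw [cnt, sum_sub] at this
          rw [cnt, ← Finset.sum_add_sum_compl (idx (middle v) x), this]
          rw [add_eq_right]
          refine Finset.sum_eq_zero fun i hi => Set.indicator_of_notMem (fun hm => ?_) _
          exact Set.disjoint_left.1 (middle_disjoint fun h' => hv (by rw [h']; exact hu))
            (mem_idx.1 hi) hm
      simp only [join, oneW]
      rw [if_pos h.1, if_pos h.2, if_pos hc, one_mul]
    · simp only [join, oneW]
      rcases not_and_or.1 h with h' | h'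
      · rw [if_neg h', zero_mul]; exact zero_le
      · rw [if_neg h', mul_zero]; exact zero_le

/-- The lattice sites of `[0,M)^3`. -/
noncomputable def sites (M : ℕ) : Finset (Fin 3 → ℤ) :=
  Fintype.piFinset fun _ => Finset.Ico 0 (M : ℤ)

lemma mem_sites {M : ℕ} {v : Fin 3 → ℤ} : v ∈ sites M ↔ ∀ a, 0 ≤ v a ∧ v a < M := by
  simp [sites, Fintype.mem_piFinset]

lemma card_sites (M : ℕ) : (sites M).card = M ^ 3 := by
  simp [sites, Fintype.card_piFinset]

lemma lattice_energy {b : ℕ → ℝ} (hb : Coeff b) (M K : ℕ) {n : ℕ} (x : Fin n → Point)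
    (hx : x ∈ cfg (⋃ v ∈ sites M, middle v) n) (hone : ∀ v ∈ sites M, cnt (middle v) x = 1) :
    Function.Injective x ∧ n = M ^ 3 ∧
      en b x ≤ 216 * n - ∑ k ∈ Finset.range K, b k * (((M - 2 * rad k : ℕ) : ℝ) ^ 3 * tcoef k) := by
  classical
  let c : Fin n → (Fin 3 → ℤ) := fun i => cell (x i)
  have hc : ∀ i, c i ∈ sites M ∧ x i ∈ middle (c i) := fun i => by
    have h := hx i
    simp only [Set.mem_iUnion] at h
    obtain ⟨v, hv, hp⟩ := h
    have hcv : c i = v := cell_of_middle hp
    rw [hcv]; exact ⟨hv, hp⟩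
  have cinj : Function.Injective c := by
    intro i j hij
    by_contra hne
    have h1 := hone _ (hc i).1
    have h2 : (2:ℝ) ≤ cnt (middle (c i)) x := by
      refine le_trans (le_of_eq ?_) (Finset.sum_le_sum_of_subset_of_nonneg
        (Finset.subset_univ {i, j}) fun k _ _ => Set.indicator_nonneg (fun _ _ => zero_le_one) _)
      rw [Finset.sum_pair hne, Set.indicator_of_mem (hc i).2, Set.indicator_of_mem (hij ▸ (hc j).2)]
      norm_num
    linarith
  have hinj : Function.Injective x := fun i j h => cinj (congrArg cell h)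
  have himg : Finset.univ.image c = sites M := by
    ext v
    constructor
    · intro h; obtain ⟨i, _, rfl⟩ := Finset.mem_image.1 h; exact (hc i).1
    · intro hv
      have h1 := hone v hv
      obtain ⟨i, -, hi⟩ := Finset.exists_ne_zero_of_sum_ne_zero
        (show cnt (middle v) x ≠ 0 by rw [h1]; norm_num)
      exact Finset.mem_image.2 ⟨i, Finset.mem_univ _, cell_of_middle (Set.mem_of_indicator_ne_zero hi)⟩
  have hn : n = M ^ 3 := by
    rw [← card_sites, ← himg, Finset.card_image_of_injective _ cinj, Finset.card_univ,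
      Fintype.card_fin]
  refine ⟨hinj, hn, ?_⟩
  have hsep : ∀ i j, i ≠ j → 1/2 ≤ eDist (x i) (x j) := by
    intro i j hij
    obtain ⟨a, ha⟩ : ∃ a, c i a ≠ c j a := by
      by_contra h; push Not at h; exact hij (cinj (funext h))
    refine le_trans ?_ (abs_coord_le_eDist _ _ a)
    obtain ⟨p1, p2⟩ := (hc i).2 a
    obtain ⟨q1, q2⟩ := (hc j).2 a
    rcases lt_or_gt_of_ne ha with h | h
    · have : (c i a : ℝ) + 1 ≤ c j a := by exact_mod_cast h
      rw [abs_sub_comm]; refine le_trans ?_ (le_abs_self _); linarith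
    · have : (c j a : ℝ) + 1 ≤ c i a := by exact_mod_cast h
      refine le_trans ?_ (le_abs_self _); linarith
  have hcore : psum (fun p q => core (eDist p q)) x ≤ 216 * n := by
    let G : Point → Point → ℝ := fun p q => if close 1 (cell p) (cell q) then 16 else 0
    have h1 : psum (fun p q => core (eDist p q)) x ≤ psum G x := by
      refine psum_le_psum fun i j hij => ?_
      simp only [core, G]
      by_cases hd : eDist (x i) (x j) < 1
      · have hcl : close 1 (cell (x i)) (cell (x j)) := fun a =>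
          floor_close (lt_of_le_of_lt (abs_coord_le_eDist _ _ a) (by simpa using hd))
        rw [if_pos hd, if_pos hcl]
        have hd4 := pow_le_pow_left₀ (by norm_num) (hsep i j hij) 4
        calc (eDist (x i) (x j) ^ 4)⁻¹ ≤ ((1/2:ℝ) ^ 4)⁻¹ := inv_anti₀ (by norm_num) hd4
          _ = 16 := by norm_num
      · rw [if_neg hd]; split_ifs <;> norm_num
    have h2 := psum_le_half_asum (F := G) (x := x) fun i => by simp only [G]; split_ifs <;> norm_num
    have h3 : asum G x = 16 * ∑ i, ∑ j, if close 1 (c i) (c j) then (1:ℝ) else 0 := by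
      simp only [asum, G, c, Finset.mul_sum, mul_ite, mul_one, mul_zero]
    have h4 := sum_close_le 1 c
    have h5 : (∑ i, ∑ j, if c i = c j then (1:ℝ) else 0) = n := by
      simp [cinj.eq_iff]
    rw [h5] at h4
    push_cast at h4
    nlinarith
  have hatt : ∑ k ∈ Finset.range K, b k * (((M - 2 * rad k : ℕ) : ℝ) ^ 3 * tcoef k) ≤
      psum (fun p q => core (eDist p q)) x - en b x := by
    have hs := en_hasSum hb x
    refine le_trans (Finset.sum_le_sum fun k _ => ?_) (sum_le_hasSum _ (fun k _ => ?_) hs)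
    swap
    · exact mul_nonneg (hb.1 k) (psum_nonneg fun i j _ => kern_nonneg _ _)
    refine mul_le_mul_of_nonneg_left ?_ (hb.1 k)
    set r := rad k
    let F : Point → Point → ℝ := fun p q =>
      if close r (cell p) (cell q) then (((k:ℝ) + 1) ^ 3)⁻¹ else 0
    have hF : psum F x ≤ psum (fun p q => kern k (eDist p q)) x := by
      refine psum_le_psum fun i j hij => ?_
      simp only [F]
      by_cases h : close r (cell (x i)) (cell (x j))
      · rw [if_pos h]
        have hr : 1 ≤ r := by
          by_contra h0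
          refine hij (cinj (funext fun a => ?_))
          have ha := h a
          have : r = 0 := by omega
          rw [this, Nat.cast_zero, abs_nonpos_iff, sub_eq_zero] at ha
          exact ha
        have h2r : 2 * r + 2 ≤ k + 1 := by
          simp only [r, rad] at hr ⊢; omega
        have h2r' : 2 * (r:ℝ) + 2 ≤ (k:ℝ) + 1 := by exact_mod_cast h2r
        have ha : ∀ a, (x i a - x j a) ^ 2 ≤ ((r:ℝ) + 1/2) ^ 2 := fun a => by
          obtain ⟨p1, p2⟩ := (hc i).2 a
          obtain ⟨q1, q2⟩ := (hc j).2 a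
          obtain ⟨l1, l2⟩ := abs_le.1 (h a)
          have l1' : -(r:ℝ) ≤ (c i a : ℝ) - c j a := by exact_mod_cast l1
          have l2' : (c i a : ℝ) - c j a ≤ r := by exact_mod_cast l2
          exact sq_le_sq' (by linarith) (by linarith)
        have hd : eDist (x i) (x j) < (k:ℝ) + 1 := by
          unfold eDist
          rw [Real.sqrt_lt' (by positivity), Fin.sum_univ_three]
          nlinarith [ha 0, ha 1, ha 2]
        rw [kern, if_pos hd]
      · rw [if_neg h]; exact kern_nonneg _ _
    refine le_trans ?_ hF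
    rw [psum_eq_half_asum_sub]
    have hdiag : ∑ i, F (x i) (x i) = n * (((k:ℝ) + 1) ^ 3)⁻¹ := by
      simp [F, close]
    let m : (Fin 3 → ℤ) → ℝ := fun v => ∑ u ∈ sites M, if close r v u then (1:ℝ) else 0
    have hsum : asum F x = (((k:ℝ) + 1) ^ 3)⁻¹ * ∑ v ∈ sites M, m v := by
      have e1 : ∀ f : (Fin 3 → ℤ) → ℝ, ∑ i, f (c i) = ∑ v ∈ sites M, f v := fun f => by
        rw [← himg, Finset.sum_image fun a _ b _ h => cinj h]
      rw [← e1 m, Finset.mul_sum]
      refine Finset.sum_congr rfl fun i _ => ?_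
      show _ = _ * ∑ u ∈ sites M, if close r (c i) u then (1:ℝ) else 0
      rw [← e1 (fun u => if close r (c i) u then (1:ℝ) else 0), Finset.mul_sum]
      refine Finset.sum_congr rfl fun j _ => ?_
      simp [F, c, mul_ite]
    rw [hdiag, hsum]
    let T : Finset (Fin 3 → ℤ) := Fintype.piFinset fun _ => Finset.Ico (r:ℤ) ((M:ℤ) - r)
    have hT : T.card = (M - 2 * r) ^ 3 := by
      have : ((M:ℤ) - r - r).toNat = M - 2 * r := by omega
      simp [T, Fintype.card_piFinset, this]
    have hTs : T ⊆ sites M := fun v hv => by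
      simp only [T, Fintype.mem_piFinset, Finset.mem_Ico] at hv
      exact mem_sites.2 fun a => by have := hv a; omega
    have hm1 : ∀ v ∈ sites M, 1 ≤ m v := fun v hv =>
      le_trans (le_of_eq (by simp [close])) (Finset.single_le_sum
        (f := fun u => if close r v u then (1:ℝ) else 0)
        (fun u _ => by split_ifs <;> norm_num) hv)
    have hmT : ∀ v ∈ T, (2 * (r:ℝ) + 1) ^ 3 ≤ m v := fun v hv => by
      simp only [T, Fintype.mem_piFinset, Finset.mem_Ico] at hv
      have hsub : (zball r).image (fun d => v + d) ⊆ (sites M).filter (fun u => close r v u) := by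
        intro u hu
        obtain ⟨d, hd, rfl⟩ := Finset.mem_image.1 hu
        rw [mem_zball] at hd
        refine Finset.mem_filter.2 ⟨mem_sites.2 fun a => ?_, fun a => ?_⟩
        · have := hv a; have := abs_le.1 (hd a); simp only [Pi.add_apply]; omega
        · simp only [Pi.add_apply]; rw [sub_add_cancel_left, abs_neg]; exact hd a
      have := Finset.card_le_card hsub
      rw [Finset.card_image_of_injective _ (add_right_injective v), card_zball] at this
      simp only [m, Finset.sum_boole]
      calc (2 * (r:ℝ) + 1) ^ 3 = (((2 * r + 1) ^ 3 : ℕ) : ℝ) := by push_cast; rfl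
        _ ≤ _ := by exact_mod_cast this
    have hlow : (((M - 2 * r : ℕ) : ℝ) ^ 3) * ((2 * (r:ℝ) + 1) ^ 3 - 1) ≤
        (∑ v ∈ sites M, m v) - n := by
      have : (∑ v ∈ sites M, m v) - n = ∑ v ∈ sites M, (m v - 1) := by
        rw [Finset.sum_sub_distrib, Finset.sum_const, nsmul_eq_mul, mul_one, card_sites, hn]
      rw [this]
      refine le_trans ?_ (Finset.sum_le_sum_of_subset_of_nonneg hTs fun v hv _ => sub_nonneg.2 (hm1 v hv))
      refine le_trans (le_of_eq ?_) (Finset.card_nsmul_le_sum _ _ ((2 * (r:ℝ) + 1) ^ 3 - 1)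
        fun v hv => sub_le_sub_right (hmT v hv) 1)
      rw [hT, nsmul_eq_mul]; push_cast; rfl
    unfold tcoef
    rw [show rad k = r from rfl]
    calc _ = (1/2) * (((k:ℝ) + 1) ^ 3)⁻¹ *
          ((((M - 2 * r : ℕ) : ℝ) ^ 3) * ((2 * (r:ℝ) + 1) ^ 3 - 1)) := by
          rw [div_eq_mul_inv, mul_inv]; ring
      _ ≤ (1/2) * (((k:ℝ) + 1) ^ 3)⁻¹ * ((∑ v ∈ sites M, m v) - n) :=
          mul_le_mul_of_nonneg_left hlow (by positivity)
      _ = _ := by ring
  linarith

lemma logZ_lattice {b : ℕ → ℝ} (hb : Coeff b) (μ : ℝ) (M K : ℕ) :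
    (μ - cost) * (M:ℝ) ^ 3 + ∑ k ∈ Finset.range K, b k * (((M - 2 * rad k : ℕ) : ℝ) ^ 3 * tcoef k)
      ≤ logZ b μ M := by
  classical
  set X := ∑ k ∈ Finset.range K, b k * (((M - 2 * rad k : ℕ) : ℝ) ^ 3 * tcoef k) with hX
  set C : ℝ := (μ - 216) * (M:ℝ) ^ 3 + X with hC
  have hU : MeasurableSet (⋃ v ∈ sites M, middle v) :=
    Finset.measurableSet_biUnion _ fun v _ => measurableSet_middle v
  have hsub : (⋃ v ∈ sites M, middle v) ⊆ box M := by
    intro p hp a
    simp only [Set.mem_iUnion] at hp
    obtain ⟨v, hv, hp⟩ := hp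
    obtain ⟨h1, h2⟩ := mem_sites.1 hv a
    obtain ⟨p1, p2⟩ := hp a
    have h1' : (0:ℝ) ≤ v a := by exact_mod_cast h1
    have h2' : (v a : ℝ) + 1 ≤ M := by exact_mod_cast (show v a + 1 ≤ (M:ℤ) by omega)
    constructor <;> linarith
  have key : ENNReal.ofReal (Real.exp C) * gc (⋃ v ∈ sites M, middle v) (oneW (sites M))
      ≤ gc (box M) (wgt b μ 0) := by
    refine le_trans ?_ (gc_mono_set hsub _)
    calc ENNReal.ofReal (Real.exp C) * gc (⋃ v ∈ sites M, middle v) (oneW (sites M))
        = gc (⋃ v ∈ sites M, middle v)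
            (fun n x => ENNReal.ofReal (Real.exp C) * oneW (sites M) n x) := by
          unfold gc
          rw [← ENNReal.tsum_mul_left]
          refine tsum_congr fun n => ?_
          rw [lintegral_const_mul _ (measurable_oneW _ n)]
          exact mul_left_comm _ _ _
      _ ≤ _ := gc_mono hU fun n x hx => by
          by_cases h : ∀ v ∈ sites M, cnt (middle v) x = 1
          · obtain ⟨hinj, hn, he⟩ := lattice_energy hb M K x hx h
            rw [oneW, if_pos h, mul_one, wgt_of_inj hinj]
            refine ENNReal.ofReal_le_ofReal (Real.exp_le_exp.2 ?_)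
            rw [← hX] at he
            have hn' : (n:ℝ) = (M:ℝ) ^ 3 := by rw [hn]; push_cast; rfl
            simp only [hC, zero_mul, add_zero]
            rw [hn'] at he ⊢
            nlinarith
          · rw [oneW, if_neg h, mul_zero]; exact zero_le
  have h8 : ENNReal.ofReal (Real.exp C) * ENNReal.ofReal (1/8) ^ (M ^ 3) ≤
      gc (box M) (wgt b μ 0) := by
    refine le_trans (mul_le_mul' le_rfl ?_) key
    rw [← card_sites]; exact pow_le_gc_oneW _
  rw [show (1/8 : ℝ) = Real.exp (-Real.log 8) by rw [Real.exp_neg, Real.exp_log (by norm_num)]; norm_num,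
    ← ENNReal.ofReal_pow (Real.exp_nonneg _), ← ENNReal.ofReal_mul (Real.exp_nonneg _),
    ← Real.exp_nat_mul, ← Real.exp_add, gc_eq_exp_logZ hb,
    ENNReal.ofReal_le_ofReal_iff (Real.exp_nonneg _), Real.exp_le_exp] at h8
  push_cast at h8
  rw [cost]
  nlinarith

/-- The variational lower bound for the pressure. -/
theorem trial_bound {b : ℕ → ℝ} (hb : Coeff b) (μ : ℝ) :
    μ - cost + ∑' k, b k * tcoef k ≤ pressure b μ := by
  have hsum : Summable fun k => b k * tcoef k :=
    Summable.of_nonneg_of_le (fun k => mul_nonneg (hb.1 k) (tcoef_nonneg k))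
      (fun k => mul_le_mul_of_nonneg_left (tcoef_le k) (hb.1 k)) (hb.2.mul_right 4)
  suffices h : ∀ K, μ - cost + ∑ k ∈ Finset.range K, b k * tcoef k ≤ pressure b μ by
    have := Tendsto.const_add (μ - cost) hsum.hasSum.tendsto_sum_nat
    exact le_of_tendsto' this h
  intro K
  have hr : ∀ r : ℕ, Tendsto (fun M : ℕ => ((M - r : ℕ) : ℝ) / M) atTop (𝓝 1) := fun r => by
    have h1 : Tendsto (fun M : ℕ => 1 - (r:ℝ) / M) atTop (𝓝 (1 - 0)) :=
      tendsto_const_nhds.sub (tendsto_const_div_atTop_nhds_zero_nat (r:ℝ))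
    rw [sub_zero] at h1
    refine h1.congr' ?_
    filter_upwards [eventually_ge_atTop r, eventually_gt_atTop 0] with M hM hM0
    have : (M:ℝ) ≠ 0 := by exact_mod_cast hM0.ne'
    rw [Nat.cast_sub hM, sub_div, div_self this]
  have hlim : Tendsto (fun M : ℕ => (μ - cost) +
      ∑ k ∈ Finset.range K, b k * ((((M - 2 * rad k : ℕ) : ℝ) / M) ^ 3 * tcoef k)) atTop
      (𝓝 ((μ - cost) + ∑ k ∈ Finset.range K, b k * ((1:ℝ) ^ 3 * tcoef k))) :=
    (tendsto_finset_sum _ fun k _ => (((hr _).pow 3).mul_const _).const_mul _).const_add _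
  simp only [one_pow, one_mul] at hlim
  refine le_of_tendsto_of_tendsto hlim ((tendsto_pressure hb μ).comp tendsto_natCast_atTop_atTop) ?_
  filter_upwards [eventually_gt_atTop 0] with M hM
  have hM' : (0:ℝ) < (M:ℝ) ^ 3 := by positivity
  simp only [Function.comp_apply]
  rw [inv_mul_eq_div, le_div_iff₀ hM']
  refine le_trans (le_of_eq ?_) (logZ_lattice hb μ M K)
  rw [add_mul, Finset.sum_mul]
  congr 1
  refine Finset.sum_congr rfl fun k _ => ?_
  field_simp

end Vale.Agent.P171
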